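import Vale.Agent.Lib.P361.helper5.Analytic
import Vale.Agent.Lib.P361.BoseIntegral

set_option linter.unusedSectionVars false
set_option linter.unusedSimpArgs false

namespace Vale.Agent.Lib.P361.helper5

open MeasureTheory intervalIntegral Finset Filter Topology

lemma cont_lat (c : ℝ) : Continuous (fun t : ℝ => Real.exp (-c * (1 - Real.cos t))) := by
  fun_prop

lemma latI_le_one {c : ℝ} (hc : 0 ≤ c) : latI c ≤ 1 := by
  unfold latI
  have h1 : ∫ t in (0 : ℝ)..Real.pi, Real.exp (-c * (1 - Real.cos t)) ≤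
      ∫ t in (0 : ℝ)..Real.pi, (1 : ℝ) := by
    apply intervalIntegral.integral_mono_on Real.pi_pos.le
      ((cont_lat c).intervalIntegrable _ _) (continuous_const.intervalIntegrable _ _)
    intro t _
    rw [Real.exp_le_one_iff]
    have := Real.cos_le_one t
    nlinarith
  rw [intervalIntegral.integral_const, smul_eq_mul, mul_one, sub_zero] at h1
  have hpi := Real.pi_pos
  calc (1 / Real.pi) * ∫ t in (0 : ℝ)..Real.pi, Real.exp (-c * (1 - Real.cos t))
      ≤ (1 / Real.pi) * Real.pi := by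
        apply mul_le_mul_of_nonneg_left h1 (by positivity)
    _ = 1 := by field_simp

lemma continuous_latI : Continuous latI := by
  unfold latI
  apply Continuous.mul continuous_const
  apply intervalIntegral.continuous_parametric_intervalIntegral_of_continuous'
  simp only [Function.uncurry_def]
  fun_prop

/-- One-dimensional lattice sum: Riemann-sum lower bound by the lattice heat-kernel average. -/
lemma lat_sum_lower {c : ℝ} (hc : 0 ≤ c) (N : ℕ) :
    latI c - 2 / (2 * (N : ℝ) + 1)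
      ≤ (1 / (2 * (N : ℝ) + 1)) * ∑ n ∈ Finset.range (2 * N + 1),
          Real.exp (-c * (1 - Real.cos (2 * Real.pi * (n : ℝ) / (2 * (N : ℝ) + 1)))) := by
  set L : ℝ := 2 * (N : ℝ) + 1 with hL
  have hLpos : 0 < L := by positivity
  have hpi := Real.pi_pos
  set δ : ℝ := 2 * Real.pi / L with hδ
  have hδpos : 0 < δ := by positivity
  set γ : ℝ → ℝ := fun t => Real.exp (-c * (1 - Real.cos (min t Real.pi))) with hγ
  have hγc : Continuous γ := by
    simp only [hγ]
    fun_prop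
  have hγint : ∀ a b : ℝ, IntervalIntegrable γ volume a b := fun a b => hγc.intervalIntegrable a b
  have hγnn : ∀ t, 0 ≤ γ t := fun t => (Real.exp_pos _).le
  have hγle1 : ∀ t, γ t ≤ 1 := by
    intro t
    simp only [hγ]
    rw [Real.exp_le_one_iff]
    have := Real.cos_le_one (min t Real.pi)
    nlinarith
  have hγanti : ∀ s t : ℝ, 0 ≤ s → s ≤ t → γ t ≤ γ s := by
    intro s t hs hst
    simp only [hγ]
    apply Real.exp_le_exp.mpr
    have h1 : Real.cos (min t Real.pi) ≤ Real.cos (min s Real.pi) :=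
      Real.cos_le_cos_of_nonneg_of_le_pi (le_min hs hpi.le) (min_le_right _ _)
        (min_le_min_right _ hst)
    nlinarith
  set a : ℕ → ℝ := fun n => Real.exp (-c * (1 - Real.cos (2 * Real.pi * (n : ℝ) / L))) with ha
  have hann : ∀ n, 0 ≤ a n := fun n => (Real.exp_pos _).le
  -- each term dominates an integral
  have hterm : ∀ n : ℕ, n ≤ N →
      ∫ t in ((n : ℝ) * δ)..(((n + 1 : ℕ) : ℝ) * δ), γ t ≤ δ * a n := by
    intro n hnN
    have hle : (n : ℝ) * δ ≤ ((n + 1 : ℕ) : ℝ) * δ := by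
      push_cast; nlinarith
    have h0 : 0 ≤ (n : ℝ) * δ := by positivity
    have h1 : ∫ t in ((n : ℝ) * δ)..(((n + 1 : ℕ) : ℝ) * δ), γ t
        ≤ ∫ t in ((n : ℝ) * δ)..(((n + 1 : ℕ) : ℝ) * δ), γ ((n : ℝ) * δ) := by
      apply intervalIntegral.integral_mono_on hle (hγint _ _) (continuous_const.intervalIntegrable _ _)
      intro t ht
      exact hγanti _ _ h0 ht.1
    rw [intervalIntegral.integral_const, smul_eq_mul] at h1
    have h2 : ((n + 1 : ℕ) : ℝ) * δ - (n : ℝ) * δ = δ := by push_cast; ring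
    rw [h2] at h1
    have h3 : γ ((n : ℝ) * δ) = a n := by
      simp only [hγ, ha]
      have harg : 2 * Real.pi * (n : ℝ) / L = (n : ℝ) * δ := by
        simp only [hδ]; ring
      have hnpi : (n : ℝ) * δ ≤ Real.pi := by
        simp only [hδ, hL]
        rw [mul_div_assoc', div_le_iff₀ (by positivity)]
        have hn' : (n : ℝ) ≤ (N : ℝ) := by exact_mod_cast hnN
        nlinarith
      rw [harg, min_eq_left hnpi]
    rw [h3] at h1
    exact h1
  -- sum over the block 1..N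
  have hblock : ∫ t in δ..Real.pi, γ t ≤ δ * ∑ n ∈ Finset.Ico 1 (N + 1), a n := by
    have hsum := intervalIntegral.sum_integral_adjacent_intervals_Ico (μ := volume)
      (f := γ) (a := fun k : ℕ => (k : ℝ) * δ) (m := 1) (n := N + 1) (by omega)
      (fun k _ => hγint _ _)
    have h1 : ∫ t in ((1 : ℕ) : ℝ) * δ..((N + 1 : ℕ) : ℝ) * δ, γ t
        ≤ δ * ∑ n ∈ Finset.Ico 1 (N + 1), a n := by
      rw [← hsum, Finset.mul_sum]
      refine Finset.sum_le_sum (fun n hn => hterm n ?_)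
      have := (Finset.mem_Ico.mp hn).2
      omega
    have h2 : Real.pi ≤ ((N + 1 : ℕ) : ℝ) * δ := by
      simp only [hδ, hL]
      push_cast
      rw [mul_div_assoc', le_div_iff₀ (by positivity)]
      nlinarith
    have h3 : ∫ t in δ..Real.pi, γ t ≤ ∫ t in ((1 : ℕ) : ℝ) * δ..((N + 1 : ℕ) : ℝ) * δ, γ t := by
      have hadd := intervalIntegral.integral_add_adjacent_intervals
        (hγint (((1 : ℕ) : ℝ) * δ) Real.pi) (hγint Real.pi (((N + 1 : ℕ) : ℝ) * δ))
      have hnn : 0 ≤ ∫ t in Real.pi..((N + 1 : ℕ) : ℝ) * δ, γ t :=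
        intervalIntegral.integral_nonneg h2 (fun t _ => hγnn t)
      have h1δ : ((1 : ℕ) : ℝ) * δ = δ := by simp
      rw [h1δ] at hadd ⊢
      linarith
    exact h3.trans h1
  -- the reflected block
  have hrefl : ∑ n ∈ Finset.Ico (N + 1) (2 * N + 1), a n = ∑ n ∈ Finset.Ico 1 (N + 1), a n := by
    have h := Finset.sum_Ico_reflect a 1 (m := N + 1) (n := 2 * N + 1) (by omega)
    have e1 : 2 * N + 1 + 1 - (N + 1) = N + 1 := by omega
    have e2 : 2 * N + 1 + 1 - 1 = 2 * N + 1 := by omega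
    rw [e1, e2] at h
    rw [← h]
    apply Finset.sum_congr rfl
    intro n hn
    have hn' := Finset.mem_Ico.mp hn
    simp only [ha]
    have := cos_reflect N n (by omega)
    simp only [hL]
    rw [this]
  have hsplit : ∑ n ∈ Finset.range (2 * N + 1), a n
      = a 0 + ∑ n ∈ Finset.Ico 1 (N + 1), a n + ∑ n ∈ Finset.Ico (N + 1) (2 * N + 1), a n := by
    rw [Finset.range_eq_Ico, ← Finset.sum_Ico_consecutive a (show 0 ≤ 1 by omega)
      (show 1 ≤ 2 * N + 1 by omega), ← Finset.sum_Ico_consecutive a (show 1 ≤ N + 1 by omega)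
      (show N + 1 ≤ 2 * N + 1 by omega)]
    simp
    ring
  have h0δ : ∫ t in (0 : ℝ)..δ, γ t ≤ δ := by
    have h1 : ∫ t in (0 : ℝ)..δ, γ t ≤ ∫ t in (0 : ℝ)..δ, (1 : ℝ) := by
      apply intervalIntegral.integral_mono_on hδpos.le (hγint _ _)
        (continuous_const.intervalIntegrable _ _)
      intro t _
      exact hγle1 t
    rw [intervalIntegral.integral_const, smul_eq_mul, mul_one, sub_zero] at h1
    exact h1
  have hadd0 := intervalIntegral.integral_add_adjacent_intervals (hγint 0 δ) (hγint δ Real.pi)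
  have hI : latI c = (1 / Real.pi) * ∫ t in (0 : ℝ)..Real.pi, γ t := by
    unfold latI
    congr 1
    apply intervalIntegral.integral_congr
    intro t ht
    rw [Set.uIcc_of_le hpi.le] at ht
    simp only [hγ]
    rw [min_eq_left ht.2]
  rw [hI, hsplit, hrefl]
  have hmain : (∫ t in (0 : ℝ)..Real.pi, γ t) - δ ≤ δ * ∑ n ∈ Finset.Ico 1 (N + 1), a n := by
    linarith
  have hdiv : (1 / Real.pi) * ((∫ t in (0 : ℝ)..Real.pi, γ t) - δ)
      ≤ (1 / Real.pi) * (δ * ∑ n ∈ Finset.Ico 1 (N + 1), a n) :=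
    mul_le_mul_of_nonneg_left hmain (by positivity)
  have e3 : (1 / Real.pi) * δ = 2 / L := by
    simp only [hδ]; field_simp
  have e4 : (1 / Real.pi) * (δ * ∑ n ∈ Finset.Ico 1 (N + 1), a n)
      = (1 / L) * (2 * ∑ n ∈ Finset.Ico 1 (N + 1), a n) := by
    simp only [hδ]; field_simp
  have e5 : (1 / Real.pi) * ((∫ t in (0 : ℝ)..Real.pi, γ t) - δ)
      = (1 / Real.pi) * (∫ t in (0 : ℝ)..Real.pi, γ t) - 2 / L := by
    rw [mul_sub, e3]
  rw [e4, e5] at hdiv
  have hfin : (1 / L) * (2 * ∑ n ∈ Finset.Ico 1 (N + 1), a n)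
      ≤ (1 / L) * (a 0 + ∑ n ∈ Finset.Ico 1 (N + 1), a n + ∑ n ∈ Finset.Ico 1 (N + 1), a n) := by
    apply mul_le_mul_of_nonneg_left _ (by positivity)
    linarith [hann 0]
  exact hdiv.trans hfin

/-- Three-dimensional lattice Bose sum: lower bound by lattice heat-kernel averages. -/
lemma bose_lattice_lower_lat {S β h m : ℝ} (hS : 0 < S) (hβ : 0 < β) (hh : 0 < h) (hm : 0 < m)
    (N M : ℕ) :
    ∑ n ∈ Finset.range M, Real.exp (-((n : ℝ) + 1) * (β * h)) *
        (latI (2 * (((n : ℝ) + 1) * (β * S ^ 2 / m))) ^ 3 - 6 / (2 * (N : ℝ) + 1))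
      ≤ (1 / (2 * (N : ℝ) + 1) ^ 3) * ∑ k : Fin 3 → Fin (2 * N + 1),
          1 / (Real.exp (β * (S * (2 * S * ∑ j, (1 - Real.cos
            (2 * Real.pi * ((k j : ℕ) : ℝ) / (2 * (N : ℝ) + 1)))) / m + h)) - 1) := by
  set L : ℝ := 2 * (N : ℝ) + 1 with hL
  have hLpos : 0 < L := by positivity
  set θ : Fin (2 * N + 1) → ℝ := fun i => 1 - Real.cos (2 * Real.pi * ((i : ℕ) : ℝ) / L) with hθ
  have hθnn : ∀ i, 0 ≤ θ i := fun i => by
    simp only [hθ]; linarith [Real.cos_le_one (2 * Real.pi * ((i : ℕ) : ℝ) / L)]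
  set T : (Fin 3 → Fin (2 * N + 1)) → ℝ := fun k => β * (S * (2 * S * ∑ j, θ (k j)) / m + h)
    with hT
  have hTpos : ∀ k, 0 < T k := by
    intro k
    simp only [hT]
    have h1 : 0 ≤ ∑ j, θ (k j) := Finset.sum_nonneg (fun j _ => hθnn _)
    have h2 : 0 ≤ S * (2 * S * ∑ j, θ (k j)) / m := by positivity
    have : 0 < S * (2 * S * ∑ j, θ (k j)) / m + h := by linarith
    positivity
  have step1 : (1 / L ^ 3) * ∑ k : Fin 3 → Fin (2 * N + 1),
        ∑ n ∈ Finset.range M, Real.exp (-((n : ℝ) + 1) * T k)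
      ≤ (1 / L ^ 3) * ∑ k : Fin 3 → Fin (2 * N + 1), 1 / (Real.exp (T k) - 1) := by
    apply mul_le_mul_of_nonneg_left _ (by positivity)
    exact Finset.sum_le_sum (fun k _ => geom_lower (hTpos k) M)
  refine le_trans ?_ step1
  rw [Finset.sum_comm, Finset.mul_sum]
  apply Finset.sum_le_sum
  intro n _
  set c : ℝ := ((n : ℝ) + 1) * β * (2 * S ^ 2 / m) with hc
  have hcnn : 0 ≤ c := by positivity
  set f : Fin (2 * N + 1) → ℝ := fun i => Real.exp (-c * θ i) with hf
  have hexp : ∀ k : Fin 3 → Fin (2 * N + 1),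
      Real.exp (-((n : ℝ) + 1) * T k) = Real.exp (-((n : ℝ) + 1) * (β * h)) * ∏ j, f (k j) := by
    intro k
    simp only [hf, hT]
    rw [← Real.exp_sum, ← Real.exp_add]
    congr 1
    rw [← Finset.mul_sum]
    simp only [hc]
    field_simp
    ring
  have hsum : ∑ k : Fin 3 → Fin (2 * N + 1), Real.exp (-((n : ℝ) + 1) * T k)
      = Real.exp (-((n : ℝ) + 1) * (β * h)) * (∑ i, f i) ^ 3 := by
    rw [Fintype.sum_pow, Finset.mul_sum]
    exact Finset.sum_congr rfl (fun k _ => hexp k)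
  rw [hsum]
  have hlat := lat_sum_lower hcnn N
  have hrange : ∑ i, f i = ∑ n ∈ Finset.range (2 * N + 1),
      Real.exp (-c * (1 - Real.cos (2 * Real.pi * (n : ℝ) / (2 * (N : ℝ) + 1)))) := by
    rw [← Fin.sum_univ_eq_sum_range (fun n : ℕ =>
      Real.exp (-c * (1 - Real.cos (2 * Real.pi * (n : ℝ) / (2 * (N : ℝ) + 1)))))]
  rw [← hrange] at hlat
  have hx0 : 0 ≤ (1 / L) * ∑ i, f i := by
    apply mul_nonneg (by positivity)
    exact Finset.sum_nonneg (fun i _ => (Real.exp_pos _).le)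
  have hcube := cube_lower (latI_nonneg c) (latI_le_one hcnn)
    (show (0 : ℝ) ≤ 2 / L by positivity) hx0 hlat
  have hc2 : c = 2 * (((n : ℝ) + 1) * (β * S ^ 2 / m)) := by
    simp only [hc]; ring
  rw [hc2] at hcube
  have e1 : (1 / L ^ 3) * (Real.exp (-((n : ℝ) + 1) * (β * h)) * (∑ i, f i) ^ 3)
      = Real.exp (-((n : ℝ) + 1) * (β * h)) * ((1 / L) * ∑ i, f i) ^ 3 := by
    field_simp
  rw [e1]
  apply mul_le_mul_of_nonneg_left _ (Real.exp_pos _).le
  have e2 : (3 : ℝ) * (2 / L) = 6 / L := by ring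
  linarith

lemma boseF_lower_lat {S β h x : ℝ} (hS : 0 < S) (hβ : 0 < β) (hh : 0 < h) (hx : 0 < x)
    (N M : ℕ) :
    x / S * ∑ n ∈ Finset.range M, Real.exp (-((n : ℝ) + 1) * (β * h)) *
        (latI (2 * (((n : ℝ) + 1) * (β * S ^ 2 / x))) ^ 3 - 6 / (2 * (N : ℝ) + 1))
      ≤ boseF S N β h x := by
  unfold boseF
  have h1 := bose_lattice_lower_lat hS hβ hh hx N M
  have h2 : ∀ k : Fin 3 → Fin (2 * N + 1),
      S * (2 * S * ∑ j, (1 - Real.cos (2 * Real.pi * ((k j : ℕ) : ℝ) / (2 * (N : ℝ) + 1)))) / x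
      = S ^ 2 * (∑ j, (2 - 2 * Real.cos
        (2 * Real.pi * ((k j : ℕ) : ℝ) / (2 * (N : ℝ) + 1)))) / x := by
    intro k
    have : ∑ j, (2 - 2 * Real.cos (2 * Real.pi * ((k j : ℕ) : ℝ) / (2 * (N : ℝ) + 1)))
        = 2 * ∑ j, (1 - Real.cos (2 * Real.pi * ((k j : ℕ) : ℝ) / (2 * (N : ℝ) + 1))) := by
      rw [Finset.mul_sum]
      apply Finset.sum_congr rfl
      intro j _
      ring
    rw [this]; ring
  simp_rw [h2] at h1
  rw [mul_assoc]
  exact mul_le_mul_of_nonneg_left h1 (by positivity)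

/-- Fixed temperature, exact dispersion: passing to the limits `N → ∞`, `h → 0+`. -/
lemma fixed_beta_lat {S : ℝ} (hS : 0 < S) (P mN : ℕ → ℝ → ℝ → ℝ)
    (hconv : ∀ N β h, 0 < β → 0 < h → P N β h - P N β 0 ≤ h * mN N β h)
    (hFV : ∀ N β h, 0 < β → 0 < h → 0 < mN N β h → boseF S N β h (mN N β h) ≤ S - mN N β h)
    (p : ℝ → ℝ) (m β : ℝ) (hβ : 0 < β)
    (hp : ∀ h, Tendsto (fun N => P N β h) atTop (𝓝 (p h)))
    (hm : HasDerivWithinAt p m (Set.Ici 0) 0)
    (μ' : ℝ) (hμ' : 0 < μ') (hlt : μ' < m) (M : ℕ) :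
    (μ' / S) * ∑ n ∈ Finset.range M, latI (2 * (((n : ℝ) + 1) * (β * S ^ 2 / μ'))) ^ 3
      ≤ S - m := by
  set q : ℝ → ℝ := fun h => (p h - p 0) / h with hq
  have hqt : Tendsto q (𝓝[>] 0) (𝓝 m) := by
    have h1 := hasDerivWithinAt_iff_tendsto_slope.mp hm
    rw [Set.Ici_sdiff_left] at h1
    refine h1.congr (fun h => ?_)
    simp [slope_def_field, hq]
  set g : ℕ → ℝ := fun n => latI (2 * (((n : ℝ) + 1) * (β * S ^ 2 / μ'))) ^ 3 with hg
  set Φ : ℝ → ℝ → ℝ := fun h d => S - (μ' / S) * ∑ n ∈ Finset.range M,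
    Real.exp (-((n : ℝ) + 1) * (β * h)) * (g n - d) with hΦ
  have hΦ0 : Φ 0 0 = S - (μ' / S) * ∑ n ∈ Finset.range M, g n := by
    simp [hΦ]
  have hR : Tendsto (fun h => Φ h 0) (𝓝[>] 0) (𝓝 (Φ 0 0)) := by
    have hc : Continuous (fun h => Φ h 0) := by
      simp only [hΦ]; fun_prop
    exact hc.continuousAt.tendsto.mono_left nhdsWithin_le_nhds
  have hev : ∀ᶠ h in 𝓝[>] (0 : ℝ), q h ≤ Φ h 0 := by
    have h1 : ∀ᶠ h in 𝓝[>] (0 : ℝ), μ' < q h := (tendsto_order.1 hqt).1 μ' hlt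
    filter_upwards [h1, self_mem_nhdsWithin] with h hqh hhpos
    have hhpos' : 0 < h := hhpos
    have hqN : Tendsto (fun N => (P N β h - P N β 0) / h) atTop (𝓝 (q h)) :=
      ((hp h).sub (hp 0)).div_const h
    have hd0 : Tendsto (fun N : ℕ => 6 / (2 * (N : ℝ) + 1)) atTop (𝓝 0) := by
      apply Filter.Tendsto.div_atTop tendsto_const_nhds
      apply Filter.tendsto_atTop_add_const_right
      exact Filter.Tendsto.const_mul_atTop (by norm_num) tendsto_natCast_atTop_atTop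
    have hRN : Tendsto (fun N : ℕ => Φ h (6 / (2 * (N : ℝ) + 1))) atTop (𝓝 (Φ h 0)) := by
      have hc : Continuous (fun d => Φ h d) := by
        simp only [hΦ]; fun_prop
      exact (hc.tendsto 0).comp hd0
    have hevN : ∀ᶠ N in atTop, (P N β h - P N β 0) / h ≤ Φ h (6 / (2 * (N : ℝ) + 1)) := by
      have h2 : ∀ᶠ N in atTop, μ' < (P N β h - P N β 0) / h := (tendsto_order.1 hqN).1 μ' hqh
      filter_upwards [h2] with N hN
      have hc := hconv N β h hβ hhpos'
      have hmN : (P N β h - P N β 0) / h ≤ mN N β h := by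
        rw [div_le_iff₀ hhpos']; linarith
      have hμN : μ' < mN N β h := lt_of_lt_of_le hN hmN
      have hmpos : 0 < mN N β h := lt_trans hμ' hμN
      have hfv := hFV N β h hβ hhpos' hmpos
      have hmono := boseF_mono hS hβ hhpos' hμ' hμN.le N
      have hlow := boseF_lower_lat hS hβ hhpos' hμ' N M
      simp only [hΦ]
      linarith
    exact le_of_tendsto_of_tendsto hqN hRN hevN
  have hfinal := le_of_tendsto_of_tendsto hqt hR hev
  rw [hΦ0] at hfinal
  linarith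

end Vale.Agent.Lib.P361.helper5

namespace Vale.Agent.Lib.P361

open Filter Topology

/-- ALL-TEMPERATURE BLOCK (helper5): at every fixed inverse temperature `b` with positive
spontaneous magnetization `m`, the partial sums of the series of lattice heat-kernel averages
(exact magnon dispersion) are bounded by `S - m`. -/
theorem bloch_series_allbeta (S : ℝ) (hS : 0 < S) (P mN : ℕ → ℝ → ℝ → ℝ)
    (hconv : ∀ N β h, 0 < β → 0 < h → P N β h - P N β 0 ≤ h * mN N β h)
    (hFV : ∀ N β h, 0 < β → 0 < h → 0 < mN N β h →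
      mN N β h / S * (1 / ((2 * (N : ℝ) + 1) ^ 3)) *
        ∑ k : Fin 3 → Fin (2 * N + 1),
          1 / (Real.exp (β * (S ^ 2 * (∑ j, (2 - 2 * Real.cos
            (2 * Real.pi * ((k j : ℕ) : ℝ) / (2 * (N : ℝ) + 1)))) / mN N β h + h)) - 1)
        ≤ S - mN N β h)
    (p : ℝ → ℝ) (m b : ℝ) (hb : 0 < b)
    (hp : ∀ h, Tendsto (fun N => P N b h) atTop (𝓝 (p h)))
    (hm : HasDerivWithinAt p m (Set.Ici 0) 0) (hm0 : 0 < m) (M : ℕ) :
    m / S * ∑ n ∈ Finset.range M, latI (2 * (((n : ℝ) + 1) * (b * S ^ 2 / m))) ^ 3 ≤ S - m := by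
  set F : ℝ → ℝ := fun μ' =>
    μ' / S * ∑ n ∈ Finset.range M, latI (2 * (((n : ℝ) + 1) * (b * S ^ 2 / μ'))) ^ 3 with hF
  have hcont : ContinuousAt F m := by
    simp only [hF]
    apply ContinuousAt.mul (by fun_prop)
    apply tendsto_finsetSum
    intro n _
    apply ContinuousAt.pow
    apply helper5.continuous_latI.continuousAt.comp
    have : ContinuousAt (fun μ' : ℝ => b * S ^ 2 / μ') m :=
      continuousAt_const.div continuousAt_id hm0.ne'
    fun_prop
  have hev : ∀ᶠ μ' in 𝓝[<] m, F μ' ≤ S - m := by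
    have h1 : ∀ᶠ μ' in 𝓝[<] m, μ' ∈ Set.Ioo (0 : ℝ) m := Ioo_mem_nhdsLT hm0
    filter_upwards [h1] with μ' hμ'
    exact helper5.fixed_beta_lat hS P mN hconv hFV p m b hb hp hm μ' hμ'.1 hμ'.2 M
  exact le_of_tendsto (hcont.tendsto.mono_left nhdsWithin_le_nhds) hev

end Vale.Agent.Lib.P361
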