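import Mathlib

namespace Vale.Agent.Lib.P361.helper5

open MeasureTheory intervalIntegral Finset Filter Topology

/-- The truncated Gaussian average `(1/π) ∫_0^π exp (-b t^2) dt`. -/
noncomputable def gaussI (b : ℝ) : ℝ :=
  (1 / Real.pi) * ∫ t in (0 : ℝ)..Real.pi, Real.exp (-b * t ^ 2)

lemma geom_lower {t : ℝ} (ht : 0 < t) (M : ℕ) :
    ∑ n ∈ Finset.range M, Real.exp (-((n : ℝ) + 1) * t) ≤ 1 / (Real.exp t - 1) := by
  have hpos : 0 < Real.exp t - 1 := by
    have := Real.add_one_lt_exp (ne_of_gt ht); linarith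
  rw [le_div_iff₀ hpos]
  have key : ∀ M : ℕ, (∑ n ∈ Finset.range M, Real.exp (-((n : ℝ) + 1) * t)) * (Real.exp t - 1)
      = 1 - Real.exp (-(M : ℝ) * t) := by
    intro M
    induction M with
    | zero => simp
    | succ k ih =>
      rw [Finset.sum_range_succ, add_mul, ih]
      have h1 : Real.exp (-((k : ℝ) + 1) * t) * Real.exp t = Real.exp (-(k : ℝ) * t) := by
        rw [← Real.exp_add]; congr 1; ring
      push_cast
      rw [mul_sub, h1]; ring
  rw [key]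
  have := Real.exp_pos (-(M : ℝ) * t)
  linarith

lemma cos_reflect (N n : ℕ) (hn : n ≤ 2 * N + 1) :
    Real.cos (2 * Real.pi * ((2 * N + 1 - n : ℕ) : ℝ) / (2 * (N : ℝ) + 1))
      = Real.cos (2 * Real.pi * (n : ℝ) / (2 * (N : ℝ) + 1)) := by
  rw [Nat.cast_sub hn]
  push_cast
  have hL : (2 * (N : ℝ) + 1) ≠ 0 := by positivity
  have h1 : 2 * Real.pi * ((2 * (N : ℝ) + 1) - n) / (2 * (N : ℝ) + 1)
      = 2 * Real.pi - 2 * Real.pi * n / (2 * (N : ℝ) + 1) := by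
    field_simp
  rw [h1, Real.cos_two_pi_sub]

lemma gaussI_nonneg (b : ℝ) : 0 ≤ gaussI b := by
  unfold gaussI
  apply mul_nonneg (by positivity)
  apply intervalIntegral.integral_nonneg Real.pi_pos.le
  intro t _
  exact (Real.exp_pos _).le

lemma cont_gauss (b : ℝ) : Continuous (fun t : ℝ => Real.exp (-b * t ^ 2)) := by
  fun_prop

lemma gaussI_le_one {b : ℝ} (hb : 0 ≤ b) : gaussI b ≤ 1 := by
  unfold gaussI
  have h1 : ∫ t in (0 : ℝ)..Real.pi, Real.exp (-b * t ^ 2) ≤ ∫ t in (0 : ℝ)..Real.pi, (1 : ℝ) := by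
    apply intervalIntegral.integral_mono_on Real.pi_pos.le
      ((cont_gauss b).intervalIntegrable _ _) (continuous_const.intervalIntegrable _ _)
    intro t _
    rw [Real.exp_le_one_iff]
    nlinarith [sq_nonneg t]
  rw [intervalIntegral.integral_const, smul_eq_mul, mul_one, sub_zero] at h1
  have hpi := Real.pi_pos
  calc (1 / Real.pi) * ∫ t in (0 : ℝ)..Real.pi, Real.exp (-b * t ^ 2)
      ≤ (1 / Real.pi) * Real.pi := by
        apply mul_le_mul_of_nonneg_left h1 (by positivity)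
    _ = 1 := by field_simp

lemma gaussI_antitone {b b' : ℝ} (h : b ≤ b') : gaussI b' ≤ gaussI b := by
  unfold gaussI
  apply mul_le_mul_of_nonneg_left _ (by positivity)
  apply intervalIntegral.integral_mono_on Real.pi_pos.le
    ((cont_gauss b').intervalIntegrable _ _) ((cont_gauss b).intervalIntegrable _ _)
  intro t _
  apply Real.exp_le_exp.mpr
  nlinarith [sq_nonneg t]

/-- One-dimensional lattice sum: Riemann-sum lower bound by the truncated Gaussian average. -/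
lemma lattice_sum_lower {c : ℝ} (hc : 0 ≤ c) (N : ℕ) :
    gaussI (c / 2) - 2 / (2 * (N : ℝ) + 1)
      ≤ (1 / (2 * (N : ℝ) + 1)) * ∑ n ∈ Finset.range (2 * N + 1),
          Real.exp (-c * (1 - Real.cos (2 * Real.pi * (n : ℝ) / (2 * (N : ℝ) + 1)))) := by
  set L : ℝ := 2 * (N : ℝ) + 1 with hL
  have hLpos : 0 < L := by positivity
  have hpi := Real.pi_pos
  set δ : ℝ := 2 * Real.pi / L with hδ
  have hδpos : 0 < δ := by positivity
  set γ : ℝ → ℝ := fun t => Real.exp (-(c / 2) * t ^ 2) with hγ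
  have hγc : Continuous γ := cont_gauss (c / 2)
  have hγint : ∀ a b : ℝ, IntervalIntegrable γ volume a b := fun a b => hγc.intervalIntegrable a b
  have hγnn : ∀ t, 0 ≤ γ t := fun t => (Real.exp_pos _).le
  have hγle1 : ∀ t, γ t ≤ 1 := by
    intro t
    simp only [hγ]
    rw [Real.exp_le_one_iff]
    nlinarith [sq_nonneg t]
  set a : ℕ → ℝ := fun n => Real.exp (-c * (1 - Real.cos (2 * Real.pi * (n : ℝ) / L))) with ha
  have hann : ∀ n, 0 ≤ a n := fun n => (Real.exp_pos _).le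
  -- each term dominates an integral
  have hterm : ∀ n : ℕ, ∫ t in ((n : ℝ) * δ)..(((n + 1 : ℕ) : ℝ) * δ), γ t ≤ δ * a n := by
    intro n
    have hle : (n : ℝ) * δ ≤ ((n + 1 : ℕ) : ℝ) * δ := by
      push_cast; nlinarith
    have h1 : ∫ t in ((n : ℝ) * δ)..(((n + 1 : ℕ) : ℝ) * δ), γ t
        ≤ ∫ t in ((n : ℝ) * δ)..(((n + 1 : ℕ) : ℝ) * δ), γ ((n : ℝ) * δ) := by
      apply intervalIntegral.integral_mono_on hle (hγint _ _) (continuous_const.intervalIntegrable _ _)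
      intro t ht
      simp only [hγ]
      apply Real.exp_le_exp.mpr
      have h0 : 0 ≤ (n : ℝ) * δ := by positivity
      have : ((n : ℝ) * δ) ^ 2 ≤ t ^ 2 := pow_le_pow_left₀ h0 ht.1 2
      nlinarith
    rw [intervalIntegral.integral_const, smul_eq_mul] at h1
    have h2 : ((n + 1 : ℕ) : ℝ) * δ - (n : ℝ) * δ = δ := by push_cast; ring
    rw [h2] at h1
    have h3 : γ ((n : ℝ) * δ) ≤ a n := by
      simp only [hγ, ha]
      apply Real.exp_le_exp.mpr
      have harg : 2 * Real.pi * (n : ℝ) / L = (n : ℝ) * δ := by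
        simp only [hδ]; ring
      rw [harg]
      have := Real.one_sub_sq_div_two_le_cos (x := (n : ℝ) * δ)
      nlinarith
    calc ∫ t in ((n : ℝ) * δ)..(((n + 1 : ℕ) : ℝ) * δ), γ t ≤ δ * γ ((n : ℝ) * δ) := h1
      _ ≤ δ * a n := mul_le_mul_of_nonneg_left h3 hδpos.le
  -- sum over the block 1..N
  have hblock : ∫ t in δ..Real.pi, γ t ≤ δ * ∑ n ∈ Finset.Ico 1 (N + 1), a n := by
    have hsum := intervalIntegral.sum_integral_adjacent_intervals_Ico (μ := volume)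
      (f := γ) (a := fun k : ℕ => (k : ℝ) * δ) (m := 1) (n := N + 1) (by omega)
      (fun k _ => hγint _ _)
    have h1 : ∫ t in ((1 : ℕ) : ℝ) * δ..((N + 1 : ℕ) : ℝ) * δ, γ t
        ≤ δ * ∑ n ∈ Finset.Ico 1 (N + 1), a n := by
      rw [← hsum, Finset.mul_sum]
      exact Finset.sum_le_sum (fun n _ => hterm n)
    have h2 : Real.pi ≤ ((N + 1 : ℕ) : ℝ) * δ := by
      simp only [hδ, hL]
      push_cast
      rw [mul_div_assoc', le_div_iff₀ (by positivity)]
      nlinarith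
    have h3 : ∫ t in δ..Real.pi, γ t ≤ ∫ t in ((1 : ℕ) : ℝ) * δ..((N + 1 : ℕ) : ℝ) * δ, γ t := by
      have hadd := intervalIntegral.integral_add_adjacent_intervals
        (hγint (((1 : ℕ) : ℝ) * δ) Real.pi) (hγint Real.pi (((N + 1 : ℕ) : ℝ) * δ))
      have hnn : 0 ≤ ∫ t in Real.pi..((N + 1 : ℕ) : ℝ) * δ, γ t :=
        intervalIntegral.integral_nonneg h2 (fun t _ => hγnn t)
      have h1δ : ((1 : ℕ) : ℝ) * δ = δ := by simp
      rw [h1δ] at hadd ⊢
      linarith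
    exact h3.trans h1
  -- the reflected block
  have hrefl : ∑ n ∈ Finset.Ico (N + 1) (2 * N + 1), a n = ∑ n ∈ Finset.Ico 1 (N + 1), a n := by
    have h := Finset.sum_Ico_reflect a 1 (m := N + 1) (n := 2 * N + 1) (by omega)
    have e1 : 2 * N + 1 + 1 - (N + 1) = N + 1 := by omega
    have e2 : 2 * N + 1 + 1 - 1 = 2 * N + 1 := by omega
    rw [e1, e2] at h
    rw [← h]
    apply Finset.sum_congr rfl
    intro n hn
    have hn' := Finset.mem_Ico.mp hn
    simp only [ha]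
    have := cos_reflect N n (by omega)
    simp only [hL]
    rw [this]
  have hsplit : ∑ n ∈ Finset.range (2 * N + 1), a n
      = a 0 + ∑ n ∈ Finset.Ico 1 (N + 1), a n + ∑ n ∈ Finset.Ico (N + 1) (2 * N + 1), a n := by
    rw [Finset.range_eq_Ico, ← Finset.sum_Ico_consecutive a (show 0 ≤ 1 by omega)
      (show 1 ≤ 2 * N + 1 by omega), ← Finset.sum_Ico_consecutive a (show 1 ≤ N + 1 by omega)
      (show N + 1 ≤ 2 * N + 1 by omega)]
    simp
    ring
  have h0δ : ∫ t in (0 : ℝ)..δ, γ t ≤ δ := by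
    have h1 : ∫ t in (0 : ℝ)..δ, γ t ≤ ∫ t in (0 : ℝ)..δ, (1 : ℝ) := by
      apply intervalIntegral.integral_mono_on hδpos.le (hγint _ _)
        (continuous_const.intervalIntegrable _ _)
      intro t _
      exact hγle1 t
    rw [intervalIntegral.integral_const, smul_eq_mul, mul_one, sub_zero] at h1
    exact h1
  have hadd0 := intervalIntegral.integral_add_adjacent_intervals (hγint 0 δ) (hγint δ Real.pi)
  have hI : gaussI (c / 2) = (1 / Real.pi) * ∫ t in (0 : ℝ)..Real.pi, γ t := rfl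
  rw [hI, hsplit, hrefl]
  have hmain : (∫ t in (0 : ℝ)..Real.pi, γ t) - δ ≤ δ * ∑ n ∈ Finset.Ico 1 (N + 1), a n := by
    linarith
  have hdiv : (1 / Real.pi) * ((∫ t in (0 : ℝ)..Real.pi, γ t) - δ)
      ≤ (1 / Real.pi) * (δ * ∑ n ∈ Finset.Ico 1 (N + 1), a n) :=
    mul_le_mul_of_nonneg_left hmain (by positivity)
  have e3 : (1 / Real.pi) * δ = 2 / L := by
    simp only [hδ]; field_simp
  have e4 : (1 / Real.pi) * (δ * ∑ n ∈ Finset.Ico 1 (N + 1), a n)
      = (1 / L) * (2 * ∑ n ∈ Finset.Ico 1 (N + 1), a n) := by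
    simp only [hδ]; field_simp
  have e5 : (1 / Real.pi) * ((∫ t in (0 : ℝ)..Real.pi, γ t) - δ)
      = (1 / Real.pi) * (∫ t in (0 : ℝ)..Real.pi, γ t) - 2 / L := by
    rw [mul_sub, e3]
  rw [e4, e5] at hdiv
  have hfin : (1 / L) * (2 * ∑ n ∈ Finset.Ico 1 (N + 1), a n)
      ≤ (1 / L) * (a 0 + ∑ n ∈ Finset.Ico 1 (N + 1), a n + ∑ n ∈ Finset.Ico 1 (N + 1), a n) := by
    apply mul_le_mul_of_nonneg_left _ (by positivity)
    linarith [hann 0]
  exact hdiv.trans hfin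

lemma cube_lower {x a d : ℝ} (ha0 : 0 ≤ a) (ha1 : a ≤ 1) (hd : 0 ≤ d) (hx0 : 0 ≤ x)
    (hx : a - d ≤ x) : a ^ 3 - 3 * d ≤ x ^ 3 := by
  by_cases h : d ≤ a
  · have h1 : (a - d) ^ 3 ≤ x ^ 3 := pow_le_pow_left₀ (by linarith) hx 3
    have h2 : a ^ 3 - 3 * d ≤ (a - d) ^ 3 := by
      nlinarith [mul_nonneg hd ha0, mul_nonneg hd (sub_nonneg.mpr h), mul_nonneg ha0 ha0,
        mul_nonneg hd (mul_nonneg ha0 ha0), mul_nonneg hd (mul_nonneg hd (sub_nonneg.mpr h)),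
        mul_nonneg hd (mul_nonneg ha0 (sub_nonneg.mpr ha1)),
        mul_nonneg hd (mul_nonneg (sub_nonneg.mpr ha1) (sub_nonneg.mpr ha1)),
        mul_nonneg hd (sub_nonneg.mpr ha1)]
    linarith
  · push Not at h
    have h1 : a ^ 3 ≤ a := by
      have : a ^ 2 ≤ 1 := by nlinarith
      nlinarith
    have h2 : 0 ≤ x ^ 3 := by positivity
    linarith

/-- Three-dimensional lattice Bose sum: lower bound by truncated Gaussian averages. -/
lemma bose_lattice_lower {S β h m : ℝ} (hS : 0 < S) (hβ : 0 < β) (hh : 0 < h) (hm : 0 < m)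
    (N M : ℕ) :
    ∑ n ∈ Finset.range M, Real.exp (-((n : ℝ) + 1) * (β * h)) *
        (gaussI (((n : ℝ) + 1) * β * S ^ 2 / m) ^ 3 - 6 / (2 * (N : ℝ) + 1))
      ≤ (1 / (2 * (N : ℝ) + 1) ^ 3) * ∑ k : Fin 3 → Fin (2 * N + 1),
          1 / (Real.exp (β * (S * (2 * S * ∑ j, (1 - Real.cos
            (2 * Real.pi * ((k j : ℕ) : ℝ) / (2 * (N : ℝ) + 1)))) / m + h)) - 1) := by
  set L : ℝ := 2 * (N : ℝ) + 1 with hL
  have hLpos : 0 < L := by positivity
  set θ : Fin (2 * N + 1) → ℝ := fun i => 1 - Real.cos (2 * Real.pi * ((i : ℕ) : ℝ) / L) with hθ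
  have hθnn : ∀ i, 0 ≤ θ i := fun i => by
    simp only [hθ]; linarith [Real.cos_le_one (2 * Real.pi * ((i : ℕ) : ℝ) / L)]
  set T : (Fin 3 → Fin (2 * N + 1)) → ℝ := fun k => β * (S * (2 * S * ∑ j, θ (k j)) / m + h)
    with hT
  have hTpos : ∀ k, 0 < T k := by
    intro k
    simp only [hT]
    have h1 : 0 ≤ ∑ j, θ (k j) := Finset.sum_nonneg (fun j _ => hθnn _)
    have h2 : 0 ≤ S * (2 * S * ∑ j, θ (k j)) / m := by positivity
    have : 0 < S * (2 * S * ∑ j, θ (k j)) / m + h := by linarith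
    positivity
  -- step 1: geometric series
  have step1 : (1 / L ^ 3) * ∑ k : Fin 3 → Fin (2 * N + 1),
        ∑ n ∈ Finset.range M, Real.exp (-((n : ℝ) + 1) * T k)
      ≤ (1 / L ^ 3) * ∑ k : Fin 3 → Fin (2 * N + 1), 1 / (Real.exp (T k) - 1) := by
    apply mul_le_mul_of_nonneg_left _ (by positivity)
    exact Finset.sum_le_sum (fun k _ => geom_lower (hTpos k) M)
  refine le_trans ?_ step1
  rw [Finset.sum_comm, Finset.mul_sum]
  apply Finset.sum_le_sum
  intro n _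
  set c : ℝ := ((n : ℝ) + 1) * β * (2 * S ^ 2 / m) with hc
  have hcnn : 0 ≤ c := by positivity
  set f : Fin (2 * N + 1) → ℝ := fun i => Real.exp (-c * θ i) with hf
  have hexp : ∀ k : Fin 3 → Fin (2 * N + 1),
      Real.exp (-((n : ℝ) + 1) * T k) = Real.exp (-((n : ℝ) + 1) * (β * h)) * ∏ j, f (k j) := by
    intro k
    simp only [hf, hT]
    rw [← Real.exp_sum, ← Real.exp_add]
    congr 1
    rw [← Finset.mul_sum]
    simp only [hc]
    field_simp
    ring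
  have hsum : ∑ k : Fin 3 → Fin (2 * N + 1), Real.exp (-((n : ℝ) + 1) * T k)
      = Real.exp (-((n : ℝ) + 1) * (β * h)) * (∑ i, f i) ^ 3 := by
    rw [Fintype.sum_pow, Finset.mul_sum]
    exact Finset.sum_congr rfl (fun k _ => hexp k)
  rw [hsum]
  have hlat := lattice_sum_lower hcnn N
  have hrange : ∑ i, f i = ∑ n ∈ Finset.range (2 * N + 1),
      Real.exp (-c * (1 - Real.cos (2 * Real.pi * (n : ℝ) / (2 * (N : ℝ) + 1)))) := by
    rw [← Fin.sum_univ_eq_sum_range (fun n : ℕ =>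
      Real.exp (-c * (1 - Real.cos (2 * Real.pi * (n : ℝ) / (2 * (N : ℝ) + 1)))))]
  rw [← hrange] at hlat
  have hx0 : 0 ≤ (1 / L) * ∑ i, f i := by
    apply mul_nonneg (by positivity)
    exact Finset.sum_nonneg (fun i _ => (Real.exp_pos _).le)
  have hcube := cube_lower (gaussI_nonneg (c / 2)) (gaussI_le_one (by positivity))
    (show (0 : ℝ) ≤ 2 / L by positivity) hx0 hlat
  have hc2 : c / 2 = ((n : ℝ) + 1) * β * S ^ 2 / m := by
    simp only [hc]; ring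
  rw [hc2] at hcube
  have e1 : (1 / L ^ 3) * (Real.exp (-((n : ℝ) + 1) * (β * h)) * (∑ i, f i) ^ 3)
      = Real.exp (-((n : ℝ) + 1) * (β * h)) * ((1 / L) * ∑ i, f i) ^ 3 := by
    field_simp
  rw [e1]
  apply mul_le_mul_of_nonneg_left _ (Real.exp_pos _).le
  have e2 : (3 : ℝ) * (2 / L) = 6 / L := by ring
  linarith

lemma sqrt_mul_gaussI {b : ℝ} (hb : 0 < b) :
    Real.sqrt b * gaussI b
      = (1 / Real.pi) * ∫ u in (0 : ℝ)..(Real.pi * Real.sqrt b), Real.exp (-u ^ 2) := by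
  unfold gaussI
  have hsb : 0 < Real.sqrt b := Real.sqrt_pos.mpr hb
  have h1 : ∀ t : ℝ, Real.exp (-b * t ^ 2) = (fun u => Real.exp (-u ^ 2)) (Real.sqrt b * t) := by
    intro t
    simp only
    congr 1
    rw [mul_pow, Real.sq_sqrt hb.le]; ring
  simp_rw [h1]
  rw [intervalIntegral.integral_comp_mul_left (fun u => Real.exp (-u ^ 2)) hsb.ne']
  simp only [mul_zero, smul_eq_mul]
  rw [mul_comm (Real.sqrt b) Real.pi]
  field_simp

lemma tendsto_sqrt_mul_gaussI :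
    Tendsto (fun b : ℝ => Real.sqrt b * gaussI b) atTop (𝓝 (1 / (2 * Real.sqrt Real.pi))) := by
  have hint : IntegrableOn (fun u : ℝ => Real.exp (-u ^ 2)) (Set.Ioi 0) := by
    have := (integrable_exp_neg_mul_sq (b := 1) one_pos).integrableOn (s := Set.Ioi 0)
    simpa using this
  have h1 : Tendsto (fun R : ℝ => ∫ u in (0 : ℝ)..R, Real.exp (-u ^ 2)) atTop
      (𝓝 (∫ u in Set.Ioi (0 : ℝ), Real.exp (-u ^ 2))) :=
    intervalIntegral_tendsto_integral_Ioi 0 hint tendsto_id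
  have h2 : ∫ u in Set.Ioi (0 : ℝ), Real.exp (-u ^ 2) = Real.sqrt Real.pi / 2 := by
    have := integral_gaussian_Ioi 1
    simpa using this
  rw [h2] at h1
  have h3 : Tendsto (fun b : ℝ => Real.pi * Real.sqrt b) atTop atTop :=
    Filter.Tendsto.const_mul_atTop Real.pi_pos Real.tendsto_sqrt_atTop
  have h4 := (h1.comp h3).const_mul (1 / Real.pi)
  have h5 : (1 / Real.pi) * (Real.sqrt Real.pi / 2) = 1 / (2 * Real.sqrt Real.pi) := by
    have hpi := Real.pi_pos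
    have hs : Real.sqrt Real.pi * Real.sqrt Real.pi = Real.pi := Real.mul_self_sqrt hpi.le
    have hs0 : 0 < Real.sqrt Real.pi := Real.sqrt_pos.mpr hpi
    field_simp
    nlinarith
  rw [h5] at h4
  refine h4.congr' ?_
  filter_upwards [eventually_gt_atTop (0 : ℝ)] with b hb
  simp only [Function.comp]
  rw [sqrt_mul_gaussI hb]

lemma tendsto_sqrt_mul_gaussI_scaled {κ : ℝ} (hκ : 0 < κ) :
    Tendsto (fun β : ℝ => Real.sqrt β * gaussI (κ * β)) atTop
      (𝓝 (1 / (2 * Real.sqrt Real.pi) / Real.sqrt κ)) := by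
  have h1 : Tendsto (fun β : ℝ => κ * β) atTop atTop :=
    Filter.Tendsto.const_mul_atTop hκ tendsto_id
  have h2 := (tendsto_sqrt_mul_gaussI.comp h1).div_const (Real.sqrt κ)
  refine h2.congr' ?_
  filter_upwards [eventually_ge_atTop (0 : ℝ)] with β hβ
  simp only [Function.comp]
  have hsκ : 0 < Real.sqrt κ := Real.sqrt_pos.mpr hκ
  rw [Real.sqrt_mul hκ.le]
  field_simp

lemma sqrt_cube_eq_rpow {x : ℝ} (hx : 0 ≤ x) : Real.sqrt x ^ 3 = x ^ (3 / 2 : ℝ) := by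
  rw [Real.sqrt_eq_rpow, ← Real.rpow_natCast, ← Real.rpow_mul hx]
  norm_num

lemma summable_inv_sqrt_cube :
    Summable (fun n : ℕ => (1 / Real.sqrt ((n : ℝ) + 1)) ^ 3) := by
  have h0 := (Real.summable_one_div_nat_rpow (p := 3 / 2)).mpr (by norm_num)
  have h1 := (summable_nat_add_iff 1).mpr h0
  refine h1.congr (fun n => ?_)
  have hx : (0 : ℝ) ≤ (n : ℝ) + 1 := by positivity
  rw [div_pow, one_pow, sqrt_cube_eq_rpow hx]
  push_cast
  rfl

/-- From the Gaussian-average inequality (valid for all `β` and all truncations `M`) to the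
one-sided Bloch asymptotics, in square-root form. -/
theorem bloch_liminf_aux {S : ℝ} (hS : 0 < S) (μ : ℝ → ℝ)
    (hμ : ∀ β, 0 < β → ∀ μ', 0 < μ' → μ' < μ β → ∀ M : ℕ,
      (μ' / S) * ∑ n ∈ Finset.range M, gaussI (((n : ℝ) + 1) * β * S ^ 2 / μ') ^ 3
        ≤ S - μ β)
    (c : ℝ)
    (hc : c < (∑' n : ℕ, (1 / Real.sqrt ((n : ℝ) + 1)) ^ 3)
      / (8 * Real.sqrt Real.pi ^ 3 * Real.sqrt S ^ 3)) :
    ∀ᶠ β in atTop, c < Real.sqrt β ^ 3 * (S - μ β) := by
  have hpi := Real.pi_pos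
  have hspi : 0 < Real.sqrt Real.pi := Real.sqrt_pos.mpr hpi
  have hsS : 0 < Real.sqrt S := Real.sqrt_pos.mpr hS
  set K : ℝ := 8 * Real.sqrt Real.pi ^ 3 * Real.sqrt S ^ 3 with hK
  have hKpos : 0 < K := by positivity
  set z : ℕ → ℝ := fun n => (1 / Real.sqrt ((n : ℝ) + 1)) ^ 3 with hz
  have hztend := summable_inv_sqrt_cube.hasSum.tendsto_sum_nat
  rw [lt_div_iff₀ hKpos] at hc
  obtain ⟨M, hM⟩ := ((tendsto_order.1 hztend).1 (c * K) hc).exists
  set Z : ℝ := ∑ n ∈ Finset.range M, z n with hZ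
  have hcont : Continuous (fun θ : ℝ => θ * Real.sqrt θ ^ 3 * Z) := by fun_prop
  have hat1 : c * K < (fun θ : ℝ => θ * Real.sqrt θ ^ 3 * Z) 1 := by simpa using hM
  have hev : ∀ᶠ θ in 𝓝[<] (1 : ℝ), c * K < θ * Real.sqrt θ ^ 3 * Z :=
    (hcont.continuousAt.eventually (lt_mem_nhds hat1)).filter_mono nhdsWithin_le_nhds
  have hev2 : ∀ᶠ θ in 𝓝[<] (1 : ℝ), θ ∈ Set.Ioo (0 : ℝ) 1 :=
    Ioo_mem_nhdsLT (by norm_num)
  obtain ⟨θ, hθ1, hθ2⟩ := (hev.and hev2).exists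
  have hθpos : 0 < θ := hθ2.1
  have hθlt : θ < 1 := hθ2.2
  have hsθ : 0 < Real.sqrt θ := Real.sqrt_pos.mpr hθpos
  set G : ℝ → ℝ := fun β => θ * ∑ n ∈ Finset.range M,
    (Real.sqrt β * gaussI ((((n : ℝ) + 1) * S / θ) * β)) ^ 3 with hG
  have hGtend : Tendsto G atTop (𝓝 (θ * ∑ n ∈ Finset.range M,
      (1 / (2 * Real.sqrt Real.pi) / Real.sqrt (((n : ℝ) + 1) * S / θ)) ^ 3)) := by
    apply Tendsto.const_mul
    apply tendsto_finsetSum
    intro n _
    have hκ : 0 < ((n : ℝ) + 1) * S / θ := by positivity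
    exact (tendsto_sqrt_mul_gaussI_scaled hκ).pow 3
  have hlim : θ * ∑ n ∈ Finset.range M,
      (1 / (2 * Real.sqrt Real.pi) / Real.sqrt (((n : ℝ) + 1) * S / θ)) ^ 3
      = θ * Real.sqrt θ ^ 3 * Z / K := by
    rw [hZ, Finset.mul_sum, Finset.mul_sum, Finset.sum_div]
    apply Finset.sum_congr rfl
    intro n _
    have hn : (0 : ℝ) < (n : ℝ) + 1 := by positivity
    have hsn : 0 < Real.sqrt ((n : ℝ) + 1) := Real.sqrt_pos.mpr hn
    rw [Real.sqrt_div (by positivity), Real.sqrt_mul hn.le]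
    simp only [hz, hK]
    field_simp
    norm_num
  rw [hlim] at hGtend
  have hclt : c < θ * Real.sqrt θ ^ 3 * Z / K := by
    rw [lt_div_iff₀ hKpos]; exact hθ1
  have hev3 : ∀ᶠ β in atTop, c < G β := (tendsto_order.1 hGtend).1 c hclt
  have htop : Tendsto (fun β : ℝ => Real.sqrt β ^ 3 * ((1 - θ) * S)) atTop atTop := by
    apply Filter.Tendsto.atTop_mul_const (by nlinarith)
    exact (Filter.tendsto_pow_atTop (by norm_num)).comp Real.tendsto_sqrt_atTop
  have hev4 : ∀ᶠ β in atTop, c < Real.sqrt β ^ 3 * ((1 - θ) * S) :=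
    htop.eventually_gt_atTop c
  filter_upwards [hev3, hev4, eventually_gt_atTop (0 : ℝ)] with β h3 h4 hβ
  have hsβ : 0 < Real.sqrt β := Real.sqrt_pos.mpr hβ
  have hsβ3 : 0 < Real.sqrt β ^ 3 := by positivity
  by_cases hcase : μ β ≤ θ * S
  · have : (1 - θ) * S ≤ S - μ β := by linarith
    calc c < Real.sqrt β ^ 3 * ((1 - θ) * S) := h4
      _ ≤ Real.sqrt β ^ 3 * (S - μ β) := mul_le_mul_of_nonneg_left this hsβ3.le
  · push Not at hcase
    have hmain := hμ β hβ (θ * S) (by positivity) hcase M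
    have hG' : G β = Real.sqrt β ^ 3 * ((θ * S / S) * ∑ n ∈ Finset.range M,
        gaussI (((n : ℝ) + 1) * β * S ^ 2 / (θ * S)) ^ 3) := by
      simp only [hG]
      rw [Finset.mul_sum, Finset.mul_sum, Finset.mul_sum]
      apply Finset.sum_congr rfl
      intro n _
      have e1 : ((n : ℝ) + 1) * S / θ * β = ((n : ℝ) + 1) * β * S ^ 2 / (θ * S) := by
        field_simp
      have e2 : θ * S / S = θ := by field_simp
      rw [e1, e2]
      ring
    calc c < G β := h3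
      _ = Real.sqrt β ^ 3 * ((θ * S / S) * ∑ n ∈ Finset.range M,
          gaussI (((n : ℝ) + 1) * β * S ^ 2 / (θ * S)) ^ 3) := hG'
      _ ≤ Real.sqrt β ^ 3 * (S - μ β) := mul_le_mul_of_nonneg_left hmain hsβ3.le

lemma zeta_three_halves_re :
    (riemannZeta (3 / 2)).re = ∑' n : ℕ, (1 / Real.sqrt ((n : ℝ) + 1)) ^ 3 := by
  have h1 : riemannZeta (3 / 2) = ∑' n : ℕ, 1 / ((n : ℂ) + 1) ^ (3 / 2 : ℂ) :=
    zeta_eq_tsum_one_div_nat_add_one_cpow (by norm_num)
  have h2 : ∀ n : ℕ, 1 / ((n : ℂ) + 1) ^ (3 / 2 : ℂ)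
      = (((1 / Real.sqrt ((n : ℝ) + 1)) ^ 3 : ℝ) : ℂ) := by
    intro n
    have hx : (0 : ℝ) ≤ (n : ℝ) + 1 := by positivity
    rw [div_pow, one_pow, sqrt_cube_eq_rpow hx]
    push_cast
    rw [Complex.ofReal_cpow hx]
    push_cast
    rfl
  rw [h1]
  simp_rw [h2]
  rw [← Complex.ofReal_tsum, Complex.ofReal_re]

/-- The finite-volume Bose lattice sum appearing in the finite-volume inequality. -/
noncomputable def boseF (S : ℝ) (N : ℕ) (β h x : ℝ) : ℝ :=
  x / S * (1 / ((2 * (N : ℝ) + 1) ^ 3)) *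
    ∑ k : Fin 3 → Fin (2 * N + 1),
      1 / (Real.exp (β * (S ^ 2 * (∑ j, (2 - 2 * Real.cos
        (2 * Real.pi * ((k j : ℕ) : ℝ) / (2 * (N : ℝ) + 1)))) / x + h)) - 1)

lemma boseF_mono {S β h x y : ℝ} (hS : 0 < S) (hβ : 0 < β) (hh : 0 < h) (hx : 0 < x)
    (hxy : x ≤ y) (N : ℕ) : boseF S N β h x ≤ boseF S N β h y := by
  unfold boseF
  have hy : 0 < y := lt_of_lt_of_le hx hxy
  have hcnn : ∀ k : Fin 3 → Fin (2 * N + 1), 0 ≤ ∑ j, (2 - 2 * Real.cos
      (2 * Real.pi * ((k j : ℕ) : ℝ) / (2 * (N : ℝ) + 1))) := by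
    intro k
    apply Finset.sum_nonneg
    intro j _
    linarith [Real.cos_le_one (2 * Real.pi * ((k j : ℕ) : ℝ) / (2 * (N : ℝ) + 1))]
  have hpos : ∀ (k : Fin 3 → Fin (2 * N + 1)) (u : ℝ), 0 < u →
      0 < Real.exp (β * (S ^ 2 * (∑ j, (2 - 2 * Real.cos
        (2 * Real.pi * ((k j : ℕ) : ℝ) / (2 * (N : ℝ) + 1)))) / u + h)) - 1 := by
    intro k u hu
    have h1 : 0 ≤ S ^ 2 * (∑ j, (2 - 2 * Real.cos
        (2 * Real.pi * ((k j : ℕ) : ℝ) / (2 * (N : ℝ) + 1)))) / u :=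
      div_nonneg (mul_nonneg (by positivity) (hcnn k)) hu.le
    have h2 : 0 < β * (S ^ 2 * (∑ j, (2 - 2 * Real.cos
        (2 * Real.pi * ((k j : ℕ) : ℝ) / (2 * (N : ℝ) + 1)))) / u + h) :=
      mul_pos hβ (by linarith)
    have := Real.add_one_lt_exp (ne_of_gt h2)
    linarith
  apply mul_le_mul
  · apply mul_le_mul_of_nonneg_right _ (by positivity)
    exact div_le_div_of_nonneg_right hxy hS.le
  · apply Finset.sum_le_sum
    intro k _
    apply one_div_le_one_div_of_le (hpos k y hy)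
    have h1 : S ^ 2 * (∑ j, (2 - 2 * Real.cos
        (2 * Real.pi * ((k j : ℕ) : ℝ) / (2 * (N : ℝ) + 1)))) / y
        ≤ S ^ 2 * (∑ j, (2 - 2 * Real.cos
        (2 * Real.pi * ((k j : ℕ) : ℝ) / (2 * (N : ℝ) + 1)))) / x :=
      div_le_div_of_nonneg_left (mul_nonneg (by positivity) (hcnn k)) hx hxy
    have h2 : β * (S ^ 2 * (∑ j, (2 - 2 * Real.cos
        (2 * Real.pi * ((k j : ℕ) : ℝ) / (2 * (N : ℝ) + 1)))) / y + h)
        ≤ β * (S ^ 2 * (∑ j, (2 - 2 * Real.cos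
        (2 * Real.pi * ((k j : ℕ) : ℝ) / (2 * (N : ℝ) + 1)))) / x + h) :=
      mul_le_mul_of_nonneg_left (by linarith) hβ.le
    linarith [Real.exp_le_exp.mpr h2]
  · apply Finset.sum_nonneg
    intro k _
    exact (one_div_pos.mpr (hpos k x hx)).le
  · positivity

lemma boseF_lower {S β h x : ℝ} (hS : 0 < S) (hβ : 0 < β) (hh : 0 < h) (hx : 0 < x)
    (N M : ℕ) :
    x / S * ∑ n ∈ Finset.range M, Real.exp (-((n : ℝ) + 1) * (β * h)) *
        (gaussI (((n : ℝ) + 1) * β * S ^ 2 / x) ^ 3 - 6 / (2 * (N : ℝ) + 1))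
      ≤ boseF S N β h x := by
  unfold boseF
  have h1 := bose_lattice_lower hS hβ hh hx N M
  have h2 : ∀ k : Fin 3 → Fin (2 * N + 1),
      S * (2 * S * ∑ j, (1 - Real.cos (2 * Real.pi * ((k j : ℕ) : ℝ) / (2 * (N : ℝ) + 1)))) / x
      = S ^ 2 * (∑ j, (2 - 2 * Real.cos
        (2 * Real.pi * ((k j : ℕ) : ℝ) / (2 * (N : ℝ) + 1)))) / x := by
    intro k
    have : ∑ j, (2 - 2 * Real.cos (2 * Real.pi * ((k j : ℕ) : ℝ) / (2 * (N : ℝ) + 1)))
        = 2 * ∑ j, (1 - Real.cos (2 * Real.pi * ((k j : ℕ) : ℝ) / (2 * (N : ℝ) + 1))) := by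
      rw [Finset.mul_sum]
      apply Finset.sum_congr rfl
      intro j _
      ring
    rw [this]; ring
  simp_rw [h2] at h1
  rw [mul_assoc]
  exact mul_le_mul_of_nonneg_left h1 (by positivity)

/-- Fixed temperature: passing to the limits `N → ∞`, `h → 0+`. -/
lemma fixed_beta {S : ℝ} (hS : 0 < S) (P mN : ℕ → ℝ → ℝ → ℝ)
    (hconv : ∀ N β h, 0 < β → 0 < h → P N β h - P N β 0 ≤ h * mN N β h)
    (hFV : ∀ N β h, 0 < β → 0 < h → 0 < mN N β h → boseF S N β h (mN N β h) ≤ S - mN N β h)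
    (p : ℝ → ℝ → ℝ) (m : ℝ → ℝ)
    (hp : ∀ β, 0 < β → ∀ h, Tendsto (fun N => P N β h) atTop (𝓝 (p β h)))
    (hm : ∀ β, 0 < β → HasDerivWithinAt (p β) (m β) (Set.Ici 0) 0)
    (β : ℝ) (hβ : 0 < β) (μ' : ℝ) (hμ' : 0 < μ') (hlt : μ' < m β) (M : ℕ) :
    (μ' / S) * ∑ n ∈ Finset.range M, gaussI (((n : ℝ) + 1) * β * S ^ 2 / μ') ^ 3
      ≤ S - m β := by
  set q : ℝ → ℝ := fun h => (p β h - p β 0) / h with hq
  have hqt : Tendsto q (𝓝[>] 0) (𝓝 (m β)) := by
    have h1 := hasDerivWithinAt_iff_tendsto_slope.mp (hm β hβ)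
    rw [Set.Ici_sdiff_left] at h1
    refine h1.congr (fun h => ?_)
    simp [slope_def_field, hq]
  set g : ℕ → ℝ := fun n => gaussI (((n : ℝ) + 1) * β * S ^ 2 / μ') ^ 3 with hg
  set Φ : ℝ → ℝ → ℝ := fun h d => S - (μ' / S) * ∑ n ∈ Finset.range M,
    Real.exp (-((n : ℝ) + 1) * (β * h)) * (g n - d) with hΦ
  have hΦ0 : Φ 0 0 = S - (μ' / S) * ∑ n ∈ Finset.range M, g n := by
    simp [hΦ]
  have hR : Tendsto (fun h => Φ h 0) (𝓝[>] 0) (𝓝 (Φ 0 0)) := by
    have hc : Continuous (fun h => Φ h 0) := by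
      simp only [hΦ]; fun_prop
    exact hc.continuousAt.tendsto.mono_left nhdsWithin_le_nhds
  have hev : ∀ᶠ h in 𝓝[>] (0 : ℝ), q h ≤ Φ h 0 := by
    have h1 : ∀ᶠ h in 𝓝[>] (0 : ℝ), μ' < q h := (tendsto_order.1 hqt).1 μ' hlt
    filter_upwards [h1, self_mem_nhdsWithin] with h hqh hhpos
    have hhpos' : 0 < h := hhpos
    have hqN : Tendsto (fun N => (P N β h - P N β 0) / h) atTop (𝓝 (q h)) :=
      ((hp β hβ h).sub (hp β hβ 0)).div_const h
    have hd0 : Tendsto (fun N : ℕ => 6 / (2 * (N : ℝ) + 1)) atTop (𝓝 0) := by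
      apply Filter.Tendsto.div_atTop tendsto_const_nhds
      apply Filter.tendsto_atTop_add_const_right
      exact Filter.Tendsto.const_mul_atTop (by norm_num) tendsto_natCast_atTop_atTop
    have hRN : Tendsto (fun N : ℕ => Φ h (6 / (2 * (N : ℝ) + 1))) atTop (𝓝 (Φ h 0)) := by
      have hc : Continuous (fun d => Φ h d) := by
        simp only [hΦ]; fun_prop
      exact (hc.tendsto 0).comp hd0
    have hevN : ∀ᶠ N in atTop, (P N β h - P N β 0) / h ≤ Φ h (6 / (2 * (N : ℝ) + 1)) := by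
      have h2 : ∀ᶠ N in atTop, μ' < (P N β h - P N β 0) / h := (tendsto_order.1 hqN).1 μ' hqh
      filter_upwards [h2] with N hN
      have hc := hconv N β h hβ hhpos'
      have hmN : (P N β h - P N β 0) / h ≤ mN N β h := by
        rw [div_le_iff₀ hhpos']; linarith
      have hμN : μ' < mN N β h := lt_of_lt_of_le hN hmN
      have hmpos : 0 < mN N β h := lt_trans hμ' hμN
      have hfv := hFV N β h hβ hhpos' hmpos
      have hmono := boseF_mono hS hβ hhpos' hμ' hμN.le N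
      have hlow := boseF_lower hS hβ hhpos' hμ' N M
      simp only [hΦ]
      linarith
    exact le_of_tendsto_of_tendsto hqN hRN hevN
  have hfinal := le_of_tendsto_of_tendsto hqt hR hev
  rw [hΦ0] at hfinal
  linarith

end Vale.Agent.Lib.P361.helper5

namespace Vale.Agent.Lib.P361

open Filter Topology

/-- ANALYTIC BLOCK (helper5).  `S` = spin, `P N β h` = finite-volume pressure, `mN N β h` =
finite-volume magnetization per site, `p`, `m` = limit pressure and its right derivative at 0. -/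
theorem bloch_analytic (S : ℝ) (hS : 0 < S) (P mN : ℕ → ℝ → ℝ → ℝ)
    (hconv : ∀ N β h, 0 < β → 0 < h → P N β h - P N β 0 ≤ h * mN N β h)
    (hFV : ∀ N β h, 0 < β → 0 < h → 0 < mN N β h →
      mN N β h / S * (1 / ((2 * (N : ℝ) + 1) ^ 3)) *
        ∑ k : Fin 3 → Fin (2 * N + 1),
          1 / (Real.exp (β * (S ^ 2 * (∑ j, (2 - 2 * Real.cos
            (2 * Real.pi * ((k j : ℕ) : ℝ) / (2 * (N : ℝ) + 1)))) / mN N β h + h)) - 1)
        ≤ S - mN N β h)
    (p : ℝ → ℝ → ℝ) (m : ℝ → ℝ)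
    (hp : ∀ β, 0 < β → ∀ h, Tendsto (fun N => P N β h) atTop (𝓝 (p β h)))
    (hm : ∀ β, 0 < β → HasDerivWithinAt (p β) (m β) (Set.Ici 0) 0) :
    ∀ c, c < (riemannZeta (3 / 2)).re / (8 * Real.pi ^ (3 / 2 : ℝ) * S ^ (3 / 2 : ℝ)) →
      ∀ᶠ β in atTop, c ≤ β ^ (3 / 2 : ℝ) * (S - m β) := by
  intro c hc
  have hH := helper5.fixed_beta hS P mN hconv hFV p m hp hm
  rw [helper5.zeta_three_halves_re, ← helper5.sqrt_cube_eq_rpow Real.pi_pos.le,
    ← helper5.sqrt_cube_eq_rpow hS.le] at hc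
  have hmain := helper5.bloch_liminf_aux hS m
    (fun β hβ μ' hμ' hlt M => hH β hβ μ' hμ' hlt M) c hc
  filter_upwards [hmain, eventually_gt_atTop (0 : ℝ)] with β hβc hβ0
  rw [← helper5.sqrt_cube_eq_rpow hβ0.le]
  exact hβc.le

end Vale.Agent.Lib.P361
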