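import Vale.Agent.Lib.P361.helper5.Analytic

namespace Vale.Agent.Lib.P361.helper5

open MeasureTheory intervalIntegral Finset Filter Topology

/-- Fixed temperature, passing to the limits `N → ∞`, `h → 0+`, when the limit pressure is only
known to be dominated frequently by the finite-volume pressures. -/
lemma fixed_beta_freq {S : ℝ} (hS : 0 < S) (P mN : ℕ → ℝ → ℝ → ℝ)
    (hconv : ∀ N β h, 0 < β → 0 < h → P N β h - P N β 0 ≤ h * mN N β h)
    (hFV : ∀ N β h, 0 < β → 0 < h → 0 < mN N β h → boseF S N β h (mN N β h) ≤ S - mN N β h)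
    (p : ℝ → ℝ) (m : ℝ) (β : ℝ) (hβ : 0 < β)
    (hfreq : ∀ h, 0 < h → ∀ ε, 0 < ε → ∃ᶠ N in atTop, p h - p 0 - ε < P N β h - P N β 0)
    (hm : HasDerivWithinAt p m (Set.Ici 0) 0)
    (μ' : ℝ) (hμ' : 0 < μ') (hlt : μ' < m) (M : ℕ) :
    (μ' / S) * ∑ n ∈ Finset.range M, gaussI (((n : ℝ) + 1) * β * S ^ 2 / μ') ^ 3
      ≤ S - m := by
  set q : ℝ → ℝ := fun h => (p h - p 0) / h with hq
  have hqt : Tendsto q (𝓝[>] 0) (𝓝 m) := by
    have h1 := hasDerivWithinAt_iff_tendsto_slope.mp hm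
    rw [Set.Ici_sdiff_left] at h1
    refine h1.congr (fun h => ?_)
    simp [slope_def_field, hq]
  set g : ℕ → ℝ := fun n => gaussI (((n : ℝ) + 1) * β * S ^ 2 / μ') ^ 3 with hg
  set Φ : ℝ → ℝ → ℝ := fun h d => S - (μ' / S) * ∑ n ∈ Finset.range M,
    Real.exp (-((n : ℝ) + 1) * (β * h)) * (g n - d) with hΦ
  have hΦ0 : Φ 0 0 = S - (μ' / S) * ∑ n ∈ Finset.range M, g n := by
    simp [hΦ]
  have hR : Tendsto (fun h => Φ h 0) (𝓝[>] 0) (𝓝 (Φ 0 0)) := by
    have hc : Continuous (fun h => Φ h 0) := by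
      simp only [hΦ]; fun_prop
    exact hc.continuousAt.tendsto.mono_left nhdsWithin_le_nhds
  have hev : ∀ᶠ h in 𝓝[>] (0 : ℝ), q h ≤ Φ h 0 := by
    have h1 : ∀ᶠ h in 𝓝[>] (0 : ℝ), μ' < q h := (tendsto_order.1 hqt).1 μ' hlt
    filter_upwards [h1, self_mem_nhdsWithin] with h hqh hhpos
    have hhpos' : 0 < h := hhpos
    by_contra hcon
    push Not at hcon
    set t : ℝ := max μ' (Φ h 0) with ht
    have htq : t < q h := max_lt hqh hcon
    have hd0 : Tendsto (fun N : ℕ => 6 / (2 * (N : ℝ) + 1)) atTop (𝓝 0) := by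
      apply Filter.Tendsto.div_atTop tendsto_const_nhds
      apply Filter.tendsto_atTop_add_const_right
      exact Filter.Tendsto.const_mul_atTop (by norm_num) tendsto_natCast_atTop_atTop
    have hRN : Tendsto (fun N : ℕ => Φ h (6 / (2 * (N : ℝ) + 1))) atTop (𝓝 (Φ h 0)) := by
      have hc : Continuous (fun d => Φ h d) := by
        simp only [hΦ]; fun_prop
      exact (hc.tendsto 0).comp hd0
    have hmid : Φ h 0 < (q h + t) / 2 := by
      have : Φ h 0 ≤ t := le_max_right _ _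
      linarith
    have hevR : ∀ᶠ N : ℕ in atTop, Φ h (6 / (2 * (N : ℝ) + 1)) < (q h + t) / 2 :=
      (tendsto_order.1 hRN).2 _ hmid
    have hε : 0 < h * (q h - t) / 2 := by
      have : 0 < q h - t := by linarith
      positivity
    obtain ⟨N, hN1, hN2⟩ := ((hfreq h hhpos' _ hε).and_eventually hevR).exists
    have hqN : (q h + t) / 2 < (P N β h - P N β 0) / h := by
      rw [lt_div_iff₀ hhpos']
      have e : p h - p 0 = q h * h := by
        simp only [hq]; field_simp
      nlinarith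
    have hμN' : μ' < (P N β h - P N β 0) / h := by
      have : μ' ≤ t := le_max_left _ _
      linarith
    have hc := hconv N β h hβ hhpos'
    have hmN : (P N β h - P N β 0) / h ≤ mN N β h := by
      rw [div_le_iff₀ hhpos']; linarith
    have hμN : μ' < mN N β h := lt_of_lt_of_le hμN' hmN
    have hmpos : 0 < mN N β h := lt_trans hμ' hμN
    have hfv := hFV N β h hβ hhpos' hmpos
    have hmono := boseF_mono hS hβ hhpos' hμ' hμN.le N
    have hlow := boseF_lower hS hβ hhpos' hμ' N M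
    have hle : (P N β h - P N β 0) / h ≤ Φ h (6 / (2 * (N : ℝ) + 1)) := by
      simp only [hΦ]
      linarith
    linarith
  have hfinal := le_of_tendsto_of_tendsto hqt hR hev
  rw [hΦ0] at hfinal
  linarith

end Vale.Agent.Lib.P361.helper5

namespace Vale.Agent.Lib.P361

open Filter Topology

/-- ANALYTIC BLOCK, version without any assumption on the existence of the thermodynamic limit:
the pressure is the `limsup` of the finite-volume pressures (it is convex, so its right derivative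
at `0` exists), and the conclusion is about its right derivative `derivWithin _ (Set.Ici 0) 0`. -/
theorem bloch_analytic_limsup (S : ℝ) (hS : 0 < S) (P mN : ℕ → ℝ → ℝ → ℝ)
    (hconv : ∀ N β h, 0 < β → 0 < h → P N β h - P N β 0 ≤ h * mN N β h)
    (hFV : ∀ N β h, 0 < β → 0 < h → 0 < mN N β h →
      mN N β h / S * (1 / ((2 * (N : ℝ) + 1) ^ 3)) *
        ∑ k : Fin 3 → Fin (2 * N + 1),
          1 / (Real.exp (β * (S ^ 2 * (∑ j, (2 - 2 * Real.cos
            (2 * Real.pi * ((k j : ℕ) : ℝ) / (2 * (N : ℝ) + 1)))) / mN N β h + h)) - 1)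
        ≤ S - mN N β h)
    (hcvx : ∀ N β, 0 < β → ConvexOn ℝ Set.univ (P N β))
    (hbdd : ∀ β, 0 < β → ∀ h, ∃ C, ∀ N, |P N β h| ≤ C) :
    ∀ c, c < (riemannZeta (3 / 2)).re / (8 * Real.pi ^ (3 / 2 : ℝ) * S ^ (3 / 2 : ℝ)) →
      ∀ᶠ β in atTop, c ≤ β ^ (3 / 2 : ℝ) *
        (S - derivWithin (fun h => limsup (fun N => P N β h) atTop) (Set.Ici 0) 0) := by
  intro c hc
  set p : ℝ → ℝ → ℝ := fun β h => limsup (fun N => P N β h) atTop with hp
  have hbu : ∀ β, 0 < β → ∀ h, IsBoundedUnder (· ≤ ·) atTop (fun N => P N β h) := by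
    intro β hβ h
    obtain ⟨C, hC⟩ := hbdd β hβ h
    exact isBoundedUnder_of ⟨C, fun N => (abs_le.mp (hC N)).2⟩
  have hbl : ∀ β, 0 < β → ∀ h, IsBoundedUnder (· ≥ ·) atTop (fun N => P N β h) := by
    intro β hβ h
    obtain ⟨C, hC⟩ := hbdd β hβ h
    exact isBoundedUnder_of ⟨-C, fun N => (abs_le.mp (hC N)).1⟩
  -- the limsup pressure is convex
  have hpcvx : ∀ β, 0 < β → ConvexOn ℝ Set.univ (p β) := by
    intro β hβ
    refine ⟨convex_univ, ?_⟩
    intro x _ y _ a b ha hb hab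
    apply le_of_forall_pos_le_add
    intro ε hε
    have hx : ∀ᶠ N in atTop, P N β x < p β x + ε :=
      eventually_lt_of_limsup_lt (by simp only [hp]; linarith) (hbu β hβ x)
    have hy : ∀ᶠ N in atTop, P N β y < p β y + ε :=
      eventually_lt_of_limsup_lt (by simp only [hp]; linarith) (hbu β hβ y)
    apply limsup_le_of_le (hbl β hβ _).isCoboundedUnder_le
    filter_upwards [hx, hy] with N hxN hyN
    have hcv := (hcvx N β hβ).2 (Set.mem_univ x) (Set.mem_univ y) ha hb hab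
    simp only [smul_eq_mul] at hcv ⊢
    have h1 : a * P N β x ≤ a * (p β x + ε) := mul_le_mul_of_nonneg_left hxN.le ha
    have h2 : b * P N β y ≤ b * (p β y + ε) := mul_le_mul_of_nonneg_left hyN.le hb
    have h3 : a * ε + b * ε = ε := by rw [← add_mul, hab, one_mul]
    nlinarith
  -- right derivative at 0
  have hmd : ∀ β, 0 < β →
      HasDerivWithinAt (p β) (derivWithin (p β) (Set.Ici 0) 0) (Set.Ici 0) 0 := by
    intro β hβ
    have h1 := (hpcvx β hβ).hasDerivWithinAt_rightDeriv_of_mem_interior (x := 0) (by simp)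
    rw [derivWithin_Ioi_eq_Ici] at h1
    exact hasDerivWithinAt_Ioi_iff_Ici.mp h1
  -- frequently-domination
  have hfreq : ∀ β, 0 < β → ∀ h, 0 < h → ∀ ε, 0 < ε →
      ∃ᶠ N in atTop, p β h - p β 0 - ε < P N β h - P N β 0 := by
    intro β hβ h hh ε hε
    by_contra hcon
    rw [not_frequently] at hcon
    have h0 : ∀ᶠ N in atTop, P N β 0 < p β 0 + ε / 2 :=
      eventually_lt_of_limsup_lt (by simp only [hp]; linarith) (hbu β hβ 0)
    have hle : p β h ≤ p β h - ε / 2 := by
      apply limsup_le_of_le (hbl β hβ _).isCoboundedUnder_le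
      filter_upwards [hcon, h0] with N h1 h2
      push Not at h1
      linarith
    linarith
  have hH : ∀ β, 0 < β → ∀ μ', 0 < μ' → μ' < derivWithin (p β) (Set.Ici 0) 0 → ∀ M : ℕ,
      (μ' / S) * ∑ n ∈ Finset.range M, helper5.gaussI (((n : ℝ) + 1) * β * S ^ 2 / μ') ^ 3
        ≤ S - derivWithin (p β) (Set.Ici 0) 0 := by
    intro β hβ μ' hμ' hlt M
    exact helper5.fixed_beta_freq hS P mN hconv hFV (p β) _ β hβ (hfreq β hβ) (hmd β hβ)
      μ' hμ' hlt M
  rw [helper5.zeta_three_halves_re, ← helper5.sqrt_cube_eq_rpow Real.pi_pos.le,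
    ← helper5.sqrt_cube_eq_rpow hS.le] at hc
  have hmain := helper5.bloch_liminf_aux hS (fun β => derivWithin (p β) (Set.Ici 0) 0) hH c hc
  filter_upwards [hmain, eventually_gt_atTop (0 : ℝ)] with β hβc hβ0
  rw [← helper5.sqrt_cube_eq_rpow hβ0.le]
  exact hβc.le

end Vale.Agent.Lib.P361
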