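import Vale.Agent.Lib.P361.Final

set_option linter.unusedSectionVars false
set_option linter.unusedSimpArgs false

namespace Vale.Agent.Lib.P361.helper5

open Matrix Finset

section TraceBounds

variable {ι : Type*} [Fintype ι] [DecidableEq ι]

/-- Two-sided bound on `Tr exp (c K)` for Hermitian `K` with eigenvalues in `[-κ, κ]`. -/
theorem trace_exp_bounds (K : Matrix ι ι ℂ) (hK : K.IsHermitian) (c κ : ℝ)
    (hκ : ∀ i, |hK.eigenvalues i| ≤ κ) :
    (Fintype.card ι : ℝ) * Real.exp (-(|c| * κ)) ≤ (trace (NormedSpace.exp ((c : ℂ) • K))).re ∧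
    (trace (NormedSpace.exp ((c : ℂ) • K))).re ≤ (Fintype.card ι : ℝ) * Real.exp (|c| * κ) := by
  have htr : (trace (NormedSpace.exp ((c : ℂ) • K))).re =
      ∑ i, Real.exp (c * hK.eigenvalues i) := by
    rw [exp_smul_hermitian K hK c, Matrix.trace_mul_cycle, Unitary.coe_star_mul_self,
      Matrix.one_mul, Matrix.trace_diagonal, Complex.re_sum]
    refine Finset.sum_congr rfl fun i _ => ?_
    rw [Complex.ofReal_re]
  rw [htr]
  have hb : ∀ i, |c * hK.eigenvalues i| ≤ |c| * κ := fun i => by
    rw [abs_mul]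
    exact mul_le_mul_of_nonneg_left (hκ i) (abs_nonneg c)
  constructor
  · calc (Fintype.card ι : ℝ) * Real.exp (-(|c| * κ)) = ∑ _i : ι, Real.exp (-(|c| * κ)) := by
          rw [Finset.sum_const, Finset.card_univ, nsmul_eq_mul]
      _ ≤ ∑ i, Real.exp (c * hK.eigenvalues i) := Finset.sum_le_sum fun i _ =>
          Real.exp_le_exp.mpr (by
            have h1 := hb i
            have h2 := neg_abs_le (c * hK.eigenvalues i)
            linarith)
  · calc ∑ i, Real.exp (c * hK.eigenvalues i) ≤ ∑ _i : ι, Real.exp (|c| * κ) :=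
          Finset.sum_le_sum fun i _ => Real.exp_le_exp.mpr (by
            have h1 := hb i
            have h2 := le_abs_self (c * hK.eigenvalues i)
            linarith)
      _ = (Fintype.card ι : ℝ) * Real.exp (|c| * κ) := by
          rw [Finset.sum_const, Finset.card_univ, nsmul_eq_mul]

end TraceBounds

/-- Two-sided bound on the partition function from an eigenvalue bound. -/
theorem Zf_bounds (d N : ℕ) (β h κ : ℝ)
    (hκ : ∀ i, |(K_hermitian_c d N h).eigenvalues i| ≤ κ) :
    (Fintype.card (Site N → Fin d) : ℝ) * Real.exp (-(|β| * κ)) ≤ Zf d N β h ∧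
    Zf d N β h ≤ (Fintype.card (Site N → Fin d) : ℝ) * Real.exp (|β| * κ) := by
  have := trace_exp_bounds (hamiltonian d N - (h : ℂ) • magnetization d N) (K_hermitian_c d N h)
    (-β) κ hκ
  rw [abs_neg] at this
  exact this

section Norms

attribute [local instance] Matrix.linftyOpNormedRing Matrix.linftyOpNormedAlgebra
  Matrix.linftyOpNormedAddCommGroup Matrix.linftyOpNormedSpace

variable {Λ : Type*} [Fintype Λ] [DecidableEq Λ] {d : ℕ}

theorem siteOp_row_sum (x : Λ) (a : Matrix (Fin d) (Fin d) ℂ) (σ : Λ → Fin d) :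
    ∑ τ : Λ → Fin d, ‖siteOp x a σ τ‖₊ = ∑ k : Fin d, ‖a (σ x) k‖₊ := by
  calc ∑ τ : Λ → Fin d, ‖siteOp x a σ τ‖₊
      = ∑ τ : Λ → Fin d, ∑ k : Fin d,
          if τ = Function.update σ x k then ‖a (σ x) k‖₊ else 0 := by
        refine Finset.sum_congr rfl fun τ _ => ?_
        simp only [siteOp]
        by_cases hP : ∀ y, y ≠ x → σ y = τ y
        · rw [if_pos hP]
          have hτ : τ = Function.update σ x (τ x) := by
            funext y
            by_cases hy : y = x
            · subst hy; simp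
            · rw [Function.update_of_ne hy]; exact (hP y hy).symm
          rw [Finset.sum_eq_single (τ x)]
          · rw [if_pos hτ]
          · intro k _ hk
            rw [if_neg]
            intro hcon
            apply hk
            have := congrFun hcon x
            simp at this
            exact this.symm
          · intro h; exact absurd (Finset.mem_univ _) h
        · rw [if_neg hP, nnnorm_zero]
          symm
          apply Finset.sum_eq_zero
          intro k _
          rw [if_neg]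
          intro hcon
          apply hP
          intro y hy
          rw [hcon, Function.update_of_ne hy]
    _ = ∑ k : Fin d, ∑ τ : Λ → Fin d,
          if τ = Function.update σ x k then ‖a (σ x) k‖₊ else 0 := Finset.sum_comm
    _ = ∑ k : Fin d, ‖a (σ x) k‖₊ := by
        refine Finset.sum_congr rfl fun k _ => ?_
        rw [Finset.sum_ite_eq']
        simp

theorem siteOp_nnnorm_le (x : Λ) (a : Matrix (Fin d) (Fin d) ℂ) : ‖siteOp x a‖₊ ≤ ‖a‖₊ := by
  rw [Matrix.linfty_opNNNorm_def, Matrix.linfty_opNNNorm_def]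
  apply Finset.sup_le
  intro σ _
  rw [siteOp_row_sum]
  exact Finset.le_sup (f := fun i => ∑ j, ‖a i j‖₊) (Finset.mem_univ (σ x))

theorem siteOp_norm_le (x : Λ) (a : Matrix (Fin d) (Fin d) ℂ) : ‖siteOp x a‖ ≤ ‖a‖ := by
  exact_mod_cast siteOp_nnnorm_le x a

/-- bound for the norm of one exchange term -/
noncomputable def bondC (d : ℕ) : ℝ :=
  ‖spinX d‖ * ‖spinX d‖ + ‖spinY d‖ * ‖spinY d‖ + ‖spinZ d‖ * ‖spinZ d‖

theorem bondC_nonneg (d : ℕ) : 0 ≤ bondC d := by
  unfold bondC
  positivity

theorem spinDot_norm_le (x y : Λ) : ‖spinDot d x y‖ ≤ bondC d := by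
  unfold spinDot bondC
  refine (norm_add_le _ _).trans (add_le_add ((norm_add_le _ _).trans (add_le_add ?_ ?_)) ?_)
  all_goals
    exact (norm_mul_le _ _).trans (mul_le_mul (siteOp_norm_le _ _) (siteOp_norm_le _ _)
      (norm_nonneg _) (norm_nonneg _))

theorem hamiltonian_norm_le (d N : ℕ) :
    ‖hamiltonian d N‖ ≤ (2 * (N : ℝ) + 1) ^ 3 * (3 * bondC d) := by
  unfold hamiltonian
  rw [norm_neg]
  refine (norm_sum_le _ _).trans ?_
  have h1 : ∀ x : Site N, ‖∑ j : Fin 3,
      (if (x j : ℕ) + 1 < 2 * N + 1 then spinDot d x (nbr x j) else 0 :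
        Matrix (Site N → Fin d) (Site N → Fin d) ℂ)‖ ≤ 3 * bondC d := by
    intro x
    refine (norm_sum_le _ _).trans ?_
    have h2 : ∀ j ∈ (Finset.univ : Finset (Fin 3)),
        ‖(if (x j : ℕ) + 1 < 2 * N + 1 then spinDot d x (nbr x j) else 0 :
          Matrix (Site N → Fin d) (Site N → Fin d) ℂ)‖ ≤ bondC d := by
      intro j _
      split_ifs
      · exact spinDot_norm_le _ _
      · rw [norm_zero]; exact bondC_nonneg d
    refine (Finset.sum_le_sum h2).trans ?_
    simp
  refine (Finset.sum_le_sum fun x _ => h1 x).trans ?_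
  rw [Finset.sum_const, Finset.card_univ, nsmul_eq_mul, card_site]

theorem magnetization_norm_le (d N : ℕ) :
    ‖magnetization d N‖ ≤ (2 * (N : ℝ) + 1) ^ 3 * ‖spinZ d‖ := by
  unfold magnetization
  refine (norm_sum_le _ _).trans ?_
  refine (Finset.sum_le_sum fun x _ => siteOp_norm_le x (spinZ d)).trans ?_
  rw [Finset.sum_const, Finset.card_univ, nsmul_eq_mul, card_site]

theorem K_norm_le (d N : ℕ) (h : ℝ) :
    ‖hamiltonian d N - (h : ℂ) • magnetization d N‖ ≤
      (2 * (N : ℝ) + 1) ^ 3 * (3 * bondC d + |h| * ‖spinZ d‖) := by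
  refine (norm_sub_le _ _).trans ?_
  rw [norm_smul]
  have h1 := hamiltonian_norm_le d N
  have h2 := magnetization_norm_le d N
  have h3 : ‖(h : ℂ)‖ = |h| := by
    rw [Complex.norm_real, Real.norm_eq_abs]
  rw [h3]
  have h4 := mul_le_mul_of_nonneg_left h2 (abs_nonneg h)
  calc ‖hamiltonian d N‖ + |h| * ‖magnetization d N‖
      ≤ (2 * (N : ℝ) + 1) ^ 3 * (3 * bondC d) + |h| * ((2 * (N : ℝ) + 1) ^ 3 * ‖spinZ d‖) :=
        add_le_add h1 h4
    _ = (2 * (N : ℝ) + 1) ^ 3 * (3 * bondC d + |h| * ‖spinZ d‖) := by ring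

theorem eigenvalues_abs_le_norm {ι : Type*} [Fintype ι] [DecidableEq ι] [Nonempty ι]
    (K : Matrix ι ι ℂ) (hK : K.IsHermitian) (i : ι) : |hK.eigenvalues i| ≤ ‖K‖ := by
  have h := hK.eigenvalues_mem_spectrum_real i
  have := spectrum.norm_le_norm_of_mem h
  simpa using this

end Norms

end Vale.Agent.Lib.P361.helper5

namespace Vale.Agent.Lib.P361

open Matrix Finset helper5

section Norms

attribute [local instance] Matrix.linftyOpNormedRing Matrix.linftyOpNormedAlgebra
  Matrix.linftyOpNormedAddCommGroup Matrix.linftyOpNormedSpace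

/-- The finite-volume pressures are bounded uniformly in the volume. -/
theorem pressure_bdd (d : ℕ) (hd : 0 < d) (β : ℝ) (hβ : 0 < β) (h : ℝ) :
    ∃ C, ∀ N, |pressure d N β h| ≤ C := by
  refine ⟨(Real.log d + β * (3 * bondC d + |h| * ‖spinZ d‖)) / β, fun N => ?_⟩
  have hne : Nonempty (Site N → Fin d) := ⟨fun _ => ⟨0, hd⟩⟩
  set c0 : ℝ := 3 * bondC d + |h| * ‖spinZ d‖ with hc0
  have hc0nn : 0 ≤ c0 := by
    have := bondC_nonneg d
    positivity
  set V : ℝ := (2 * (N : ℝ) + 1) ^ 3 with hVdef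
  have hV : 0 < V := by positivity
  have hκ : ∀ i, |(K_hermitian_c d N h).eigenvalues i| ≤ V * c0 := fun i =>
    (eigenvalues_abs_le_norm _ (K_hermitian_c d N h) i).trans (K_norm_le d N h)
  obtain ⟨hlo, hhi⟩ := Zf_bounds d N β h (V * c0) hκ
  rw [abs_of_pos hβ] at hlo hhi
  have hZ : 0 < Zf d N β h := Zf_pos d N hd β h
  have hcard : (Fintype.card (Site N → Fin d) : ℝ) = (d : ℝ) ^ Fintype.card (Site N) := by
    rw [Fintype.card_fun, Fintype.card_fin]
    push_cast
    rfl
  have hdpos : (0 : ℝ) < d := by exact_mod_cast hd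
  have hDpos : (0 : ℝ) < (Fintype.card (Site N → Fin d) : ℝ) := by
    rw [hcard]
    positivity
  have hlogD : Real.log (Fintype.card (Site N → Fin d) : ℝ) = V * Real.log d := by
    rw [hcard, Real.log_pow, card_site]
  have hlogd : 0 ≤ Real.log (d : ℝ) := Real.log_nonneg (by exact_mod_cast hd)
  have h1 : V * Real.log d - β * (V * c0) ≤ Real.log (Zf d N β h) := by
    have := Real.log_le_log (mul_pos hDpos (Real.exp_pos _)) hlo
    rw [Real.log_mul hDpos.ne' (Real.exp_pos _).ne', Real.log_exp, hlogD] at this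
    linarith
  have h2 : Real.log (Zf d N β h) ≤ V * Real.log d + β * (V * c0) := by
    have := Real.log_le_log hZ hhi
    rw [Real.log_mul hDpos.ne' (Real.exp_pos _).ne', Real.log_exp, hlogD] at this
    linarith
  have h3 : |Real.log (Zf d N β h)| ≤ V * (Real.log d + β * c0) := by
    rw [abs_le]
    constructor
    · have : 0 ≤ V * Real.log d := mul_nonneg hV.le hlogd
      have : 0 ≤ β * (V * c0) := mul_nonneg hβ.le (mul_nonneg hV.le hc0nn)
      nlinarith
    · linarith
  rw [pressure_eq, abs_div, abs_of_pos (mul_pos hβ hV), div_le_div_iff₀ (mul_pos hβ hV) hβ]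
  calc |Real.log (Zf d N β h)| * β ≤ V * (Real.log d + β * c0) * β :=
        mul_le_mul_of_nonneg_right h3 hβ.le
    _ = (Real.log d + β * c0) * (β * V) := by ring

end Norms

end Vale.Agent.Lib.P361
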