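import Vale.Agent.Lib.P361.Final
import Vale.Agent.Lib.P361.helper5.AnalyticLimsup
import Vale.Agent.Lib.P361.helper5.Bdd
import Vale.Agent.Lib.P361.helper61.Convex

namespace Vale.Agent.Lib.P361

open Filter Topology

/-- One-sided Bloch law without any hypothesis on the existence of the thermodynamic limit:
the pressure is taken to be the upper limit of the finite-volume pressures, and the
magnetization its right derivative in the field at zero field. -/
theorem bloch_upper_limsup (d : ℕ) (hd : 2 ≤ d) :
    ∀ c, c < (riemannZeta (3 / 2)).re /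
        (8 * Real.pi ^ (3 / 2 : ℝ) * (((d : ℝ) - 1) / 2) ^ (3 / 2 : ℝ)) →
      ∀ᶠ β in atTop, c ≤ β ^ (3 / 2 : ℝ) * (((d : ℝ) - 1) / 2 -
        derivWithin (fun h => limsup (fun N => pressure d N β h) atTop) (Set.Ici 0) 0) := by
  have hSv : 0 < Sv d := by
    unfold Sv
    have : (2 : ℝ) ≤ (d : ℝ) := by exact_mod_cast hd
    linarith
  exact bloch_analytic_limsup (Sv d) hSv (fun N β h => pressure d N β h)
    (fun N β h => mN d N β h)
    (fun N β h hβ hh => concrete_conv d N (by omega) β h hβ hh)
    (fun N β h hβ hh hm => concrete_fv d N hd β h hβ hh hm)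
    (fun N β hβ => pressure_convex d N (by omega) β hβ)
    (fun β hβ h => pressure_bdd d (by omega) β hβ h)

/-- The upper-limit pressure is convex in the field. -/
theorem limsup_pressure_convex (d : ℕ) (hd : 0 < d) (β : ℝ) (hβ : 0 < β) :
    ConvexOn ℝ Set.univ (fun h => limsup (fun N => pressure d N β h) atTop) := by
  have hbu : ∀ h, IsBoundedUnder (· ≤ ·) atTop (fun N => pressure d N β h) := by
    intro h
    obtain ⟨C, hC⟩ := pressure_bdd d hd β hβ h
    exact isBoundedUnder_of ⟨C, fun N => (abs_le.mp (hC N)).2⟩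
  have hbl : ∀ h, IsBoundedUnder (· ≥ ·) atTop (fun N => pressure d N β h) := by
    intro h
    obtain ⟨C, hC⟩ := pressure_bdd d hd β hβ h
    exact isBoundedUnder_of ⟨-C, fun N => (abs_le.mp (hC N)).1⟩
  refine ⟨convex_univ, ?_⟩
  intro x _ y _ a b ha hb hab
  apply le_of_forall_pos_le_add
  intro ε hε
  have hx : ∀ᶠ N in atTop, pressure d N β x <
      limsup (fun N => pressure d N β x) atTop + ε :=
    eventually_lt_of_limsup_lt (by linarith) (hbu x)
  have hy : ∀ᶠ N in atTop, pressure d N β y <
      limsup (fun N => pressure d N β y) atTop + ε :=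
    eventually_lt_of_limsup_lt (by linarith) (hbu y)
  apply limsup_le_of_le (hbl _).isCoboundedUnder_le
  filter_upwards [hx, hy] with N hxN hyN
  have hcv := (pressure_convex d N hd β hβ).2 (Set.mem_univ x) (Set.mem_univ y) ha hb hab
  simp only [smul_eq_mul] at hcv ⊢
  have h1 : a * pressure d N β x ≤ a * (limsup (fun N => pressure d N β x) atTop + ε) :=
    mul_le_mul_of_nonneg_left hxN.le ha
  have h2 : b * pressure d N β y ≤ b * (limsup (fun N => pressure d N β y) atTop + ε) :=
    mul_le_mul_of_nonneg_left hyN.le hb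
  have h3 : a * ε + b * ε = ε := by rw [← add_mul, hab, one_mul]
  nlinarith

/-- The upper-limit pressure has a right derivative in the field at zero field. -/
theorem limsup_pressure_hasDerivWithinAt (d : ℕ) (hd : 0 < d) (β : ℝ) (hβ : 0 < β) :
    HasDerivWithinAt (fun h => limsup (fun N => pressure d N β h) atTop)
      (derivWithin (fun h => limsup (fun N => pressure d N β h) atTop) (Set.Ici 0) 0)
      (Set.Ici 0) 0 := by
  have h1 := (limsup_pressure_convex d hd β hβ).hasDerivWithinAt_rightDeriv_of_mem_interior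
    (x := 0) (by simp)
  rw [derivWithin_Ioi_eq_Ici] at h1
  exact hasDerivWithinAt_Ioi_iff_Ici.mp h1

/-- If the thermodynamic limit exists, the upper-limit pressure is the pressure. -/
theorem limsup_pressure_eq_of_tendsto (d : ℕ) (β h p : ℝ)
    (hp : Tendsto (fun N => pressure d N β h) atTop (𝓝 p)) :
    limsup (fun N => pressure d N β h) atTop = p :=
  hp.limsup_eq

/-- One-sided Bloch law, with no hypothesis: the upper-limit pressure has a right derivative
`m β` in the field at zero field, and `liminf β^{3/2} (S - m β)` is at least the Bloch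
coefficient. -/
theorem bloch_upper_unconditional (d : ℕ) (hd : 2 ≤ d) :
    ∃ m : ℝ → ℝ,
      (∀ β, 0 < β → HasDerivWithinAt (fun h => limsup (fun N => pressure d N β h) atTop)
        (m β) (Set.Ici 0) 0) ∧
      ∀ c, c < (riemannZeta (3 / 2)).re /
          (8 * Real.pi ^ (3 / 2 : ℝ) * (((d : ℝ) - 1) / 2) ^ (3 / 2 : ℝ)) →
        ∀ᶠ β in atTop, c ≤ β ^ (3 / 2 : ℝ) * (((d : ℝ) - 1) / 2 - m β) :=
  ⟨fun β => derivWithin (fun h => limsup (fun N => pressure d N β h) atTop) (Set.Ici 0) 0,
    fun β hβ => limsup_pressure_hasDerivWithinAt d (by omega) β hβ,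
    bloch_upper_limsup d hd⟩

end Vale.Agent.Lib.P361
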