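import Vale.Agent.Lib.P361.TL.Conv

namespace Vale.Agent.Lib.P361

open Filter Topology

/-- A bounded sequence `Q` with `(q (2N+1) / (2N'+1))^3 * Q N ≤ Q N'` for `N ≤ N'`, where
`q = (2N'+1) / (2N+1)` (floor division), converges. -/
theorem tendsto_of_block_ineq (Q : ℕ → ℝ) (hb : ∃ C, ∀ N, |Q N| ≤ C)
    (h : ∀ N N' : ℕ, N ≤ N' →
      (((((2 * N' + 1) / (2 * N + 1) : ℕ) : ℝ) * (2 * (N : ℝ) + 1)) / (2 * (N' : ℝ) + 1)) ^ 3 *
        Q N ≤ Q N') :
    ∃ q, Tendsto Q atTop (𝓝 q) := by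
  obtain ⟨C, hC⟩ := hb
  have hC0 : 0 ≤ C := (abs_nonneg _).trans (hC 0)
  have key : ∃ l, Tendsto (fun N => -Q N) atTop (𝓝 l) := by
    refine TL.tendsto_of_cube_subadditive (fun N => -Q N) C C (fun N => ?_) ?_
    · rw [abs_neg]
      exact hC N
    · intro N L
      have hn : (0 : ℝ) < 2 * (N : ℝ) + 1 := by positivity
      have hn3 : (0 : ℝ) < (2 * (N : ℝ) + 1) ^ 3 := by positivity
      have hmn : ((((2 * N + 1) / (2 * L + 1) : ℕ) : ℝ) * (2 * (L : ℝ) + 1)) ^ 3 ≤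
          (2 * (N : ℝ) + 1) ^ 3 := by
        have h1 : (2 * N + 1) / (2 * L + 1) * (2 * L + 1) ≤ 2 * N + 1 := Nat.div_mul_le_self _ _
        have h2 : (((2 * N + 1) / (2 * L + 1) * (2 * L + 1) : ℕ) : ℝ) ≤ ((2 * N + 1 : ℕ) : ℝ) := by
          exact_mod_cast h1
        push_cast at h2
        exact pow_le_pow_left₀ (by positivity) h2 3
      have hrest : 0 ≤ ((2 * (N : ℝ) + 1) ^ 3 -
          ((((2 * N + 1) / (2 * L + 1) : ℕ) : ℝ) * (2 * (L : ℝ) + 1)) ^ 3) * C :=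
        mul_nonneg (by linarith) hC0
      rcases le_or_gt L N with hLN | hLN
      · have h1 := h L N hLN
        rw [div_pow, div_mul_eq_mul_div, div_le_iff₀ hn3] at h1
        linarith
      · have hq : (2 * N + 1) / (2 * L + 1) = 0 := Nat.div_eq_of_lt (by omega)
        rw [hq]
        have h2 := (abs_le.mp (hC N)).1
        simp only [Nat.cast_zero, zero_mul, ne_eq, OfNat.ofNat_ne_zero, not_false_eq_true,
          zero_pow, sub_zero, zero_add]
        nlinarith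
  obtain ⟨l, hl⟩ := key
  refine ⟨-l, ?_⟩
  have := hl.neg
  simpa using this

end Vale.Agent.Lib.P361
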